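import Vale.Agent.P219.Orthant

/-!
# P219: repeated bisection by hyperplanes through the origin

An even volume density can be cut into two equal halves by a hyperplane through the origin, with
normal in any subspace of dimension at least two. After `n - 1` orthogonal cuts, keeping the half
with the smaller boundary term, two orthants remain.
-/

namespace Vale.Agent.P219

open MeasureTheory Set Filter Topology Metric
open scoped ENNReal RealInnerProductSpace

variable {n : ℕ}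

lemma inner_ne_zero_ae {u : E n} (hu : u ≠ 0) : ∀ᵐ x : E n, ⟪u, x⟫ ≠ 0 := by
  rw [ae_iff]
  have h := Vale.Agent.P237.BM.volume_level hu 0
  refine measure_mono_null (fun x hx => ?_) h
  simpa [real_inner_comm] using hx

/-- The two half spaces share the integral. -/
lemma half_split {u : E n} (hu : u ≠ 0) (S : Set (E n)) (f : E n → ℝ≥0∞) :
    (∫⁻ x in S ∩ {x | 0 < ⟪u, x⟫}, f x) + (∫⁻ x in S ∩ {x | 0 < ⟪-u, x⟫}, f x)
      = ∫⁻ x in S, f x := by
  have hm : MeasurableSet {x : E n | 0 < ⟪u, x⟫} :=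
    (isOpen_lt continuous_const (continuous_const.inner continuous_id)).measurableSet
  rw [← lintegral_inter_add_sdiff f S hm]
  refine congrArg ((∫⁻ x in S ∩ {x | 0 < ⟪u, x⟫}, f x) + ·) ?_
  refine setLIntegral_congr ?_
  filter_upwards [inner_ne_zero_ae hu] with x hx
  refine propext ⟨fun h => ⟨h.1, ?_⟩, fun h => ⟨h.1, ?_⟩⟩
  · have h2 : 0 < -⟪u, x⟫ := by
      have := h.2
      simpa [inner_neg_left] using this
    simp only [mem_ofPred_eq, not_lt]
    linarith
  · have h2 : ¬ 0 < ⟪u, x⟫ := h.2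
    show 0 < ⟪-u, x⟫
    rw [inner_neg_left]
    rcases lt_or_gt_of_ne hx with h3 | h3
    · linarith
    · exact absurd h3 h2

/-- A bisecting hyperplane with normal in a given subspace. -/
lemma exists_bisect (W : Submodule ℝ (E n)) (hW : 1 < Module.finrank ℝ W) (S : Set (E n))
    {f : E n → ℝ≥0∞} (hfin : ∫⁻ x in S, f x ≠ ∞) :
    ∃ u ∈ W, ‖u‖ = 1 ∧
      ∫⁻ x in S ∩ {x | 0 < ⟪u, x⟫}, f x = ∫⁻ x in S ∩ {x | 0 < ⟪-u, x⟫}, f x := by
  set ν := (volume.restrict S).withDensity f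
  have : IsFiniteMeasure ν := isFiniteMeasure_withDensity hfin
  have hm : ∀ u : E n, MeasurableSet {x : E n | 0 < ⟪u, x⟫} := fun u =>
    (isOpen_lt continuous_const (continuous_const.inner continuous_id)).measurableSet
  set H : W → ℝ := fun u => ∫ x, {x : E n | 0 < ⟪(u : E n), x⟫}.indicator (fun _ => (1 : ℝ)) x ∂ν
  have hH : ∀ u : W, H u = (∫⁻ x in S ∩ {x | 0 < ⟪(u : E n), x⟫}, f x).toReal := fun u => by
    simp only [H]
    rw [integral_indicator_const _ (hm _), smul_eq_mul, mul_one, measureReal_def,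
      withDensity_apply _ (hm _), Measure.restrict_restrict (hm _), inter_comm]
  have hcont : ContinuousOn H (sphere (0 : W) 1) := by
    intro u hu
    refine ContinuousAt.continuousWithinAt ?_
    refine continuousAt_of_dominated (bound := fun _ => (1 : ℝ))
      (Eventually.of_forall fun u => (measurable_const.indicator (hm _)).aestronglyMeasurable)
      (Eventually.of_forall fun u => ae_of_all _ fun x => ?_) (integrable_const _) ?_
    · by_cases h : 0 < ⟪(u : E n), x⟫ <;> simp [h]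
    · have hu0 : (u : E n) ≠ 0 := by
        intro h
        have : ‖(u : E n)‖ = 1 := by simpa using hu
        simp [h] at this
      have hac : ν ≪ volume := (withDensity_absolutelyContinuous _ _).trans
        (Measure.absolutelyContinuous_of_le Measure.restrict_le_self)
      filter_upwards [hac.ae_le (inner_ne_zero_ae hu0)] with x hx
      have hc : Continuous fun u : W => ⟪(u : E n), x⟫ :=
        continuous_subtype_val.inner continuous_const
      rcases lt_or_gt_of_ne hx with h | h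
      · refine (continuousAt_const (y := (0 : ℝ))).congr
          (((hc.tendsto u).eventually (gt_mem_nhds h)).mono fun u' hu' => ?_)
        simp [not_lt.2 (le_of_lt hu')]
      · refine (continuousAt_const (y := (1 : ℝ))).congr
          (((hc.tendsto u).eventually (lt_mem_nhds h)).mono fun u' hu' => ?_)
        simp [hu']
  have hrank : 1 < Module.rank ℝ W := by
    rw [← Module.finrank_eq_rank]; exact_mod_cast hW
  have hS := isConnected_sphere hrank (0 : W) zero_le_one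
  obtain ⟨v, hv⟩ := hS.nonempty
  have hneg : MapsTo (fun u : W => -u) (sphere (0 : W) 1) (sphere (0 : W) 1) := fun u hu => by
    simpa using hu
  have hcont' : ContinuousOn (fun u => H (-u)) (sphere (0 : W) 1) :=
    hcont.comp continuous_neg.continuousOn hneg
  obtain ⟨u, hu, he⟩ : ∃ u ∈ sphere (0 : W) 1, H u = H (-u) := by
    rcases le_total (H v) (H (-v)) with h | h
    · exact hS.isPreconnected.intermediate_value₂ hv (hneg hv) hcont hcont' h (by simpa using h)
    · exact hS.isPreconnected.intermediate_value₂ (hneg hv) hv hcont hcont' (by simpa using h) h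
  refine ⟨u, u.2, by simpa using hu, ?_⟩
  rw [hH, hH] at he
  have hfin' : ∀ T, ∫⁻ x in S ∩ T, f x ≠ ∞ := fun T =>
    ne_top_of_le_ne_top hfin (lintegral_mono_set inter_subset_left)
  rw [ENNReal.toReal_eq_toReal_iff' (hfin' _) (hfin' _)] at he
  simpa using he

/-- The common part of half spaces. -/
def chamber {j : ℕ} (v : Fin j → E n) : Set (E n) := {x | ∀ i, 0 < ⟪v i, x⟫}

lemma chamber_cons {j : ℕ} (u : E n) (v : Fin j → E n) :
    chamber (Fin.cons u v : Fin (j + 1) → E n) = chamber v ∩ {x | 0 < ⟪u, x⟫} := by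
  ext x
  simp [chamber, Fin.forall_fin_succ, and_comm]

lemma orthonormal_cons {j : ℕ} {u : E n} {v : Fin j → E n} (hv : Orthonormal ℝ v)
    (hu : ‖u‖ = 1) (h : ∀ i, ⟪v i, u⟫ = 0) :
    Orthonormal ℝ (Fin.cons u v : Fin (j + 1) → E n) := by
  refine ⟨fun i => ?_, fun i k hik => ?_⟩
  · refine Fin.cases ?_ (fun i => ?_) i <;> simp [hu, hv.1]
  · revert hik
    refine Fin.cases ?_ (fun i => ?_) i <;> refine Fin.cases ?_ (fun k => ?_) k <;> intro hik
    · exact absurd rfl hik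
    · simpa [real_inner_comm] using h k
    · simpa using h i
    · simp only [Fin.cons_succ]
      exact hv.2 fun e => hik (by rw [e])

lemma finrank_perp {j : ℕ} {v : Fin j → E n} (hv : Orthonormal ℝ v) :
    Module.finrank ℝ (Submodule.span ℝ (range v))ᗮ = n - j := by
  have h := (Submodule.span ℝ (range v)).finrank_add_finrank_orthogonal
  rw [finrank_span_eq_card hv.linearIndependent, finrank_euclideanSpace_fin,
    Fintype.card_fin] at h
  omega

lemma inner_perp {j : ℕ} {v : Fin j → E n} {u : E n}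
    (hu : u ∈ (Submodule.span ℝ (range v))ᗮ) (i : Fin j) : ⟪v i, u⟫ = 0 :=
  Submodule.inner_right_of_mem_orthogonal (Submodule.subset_span (mem_range_self i)) hu

/-- `j` cuts with exact halves of `f` and the smaller part of `g`. -/
lemma exists_chamber {f : E n → ℝ≥0∞} (hfin : ∫⁻ x, f x ≠ ∞)
    (g : E n → ℝ≥0∞) : ∀ j, j < n → ∃ v : Fin j → E n, Orthonormal ℝ v ∧
      (∫⁻ x in chamber v, f x) * 2 ^ j = ∫⁻ x, f x ∧
      (∫⁻ x in chamber v, g x) * 2 ^ j ≤ ∫⁻ x, g x := by
  intro j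
  induction j with
  | zero =>
    intro _
    have e : chamber (Fin.elim0 : Fin 0 → E n) = univ := by
      ext x; simp [chamber]
    refine ⟨Fin.elim0, ⟨fun i => i.elim0, fun i => i.elim0⟩, ?_, ?_⟩ <;> simp [e]
  | succ j ih =>
    intro hj
    obtain ⟨v, hv, hvf, hvg⟩ := ih (by omega)
    obtain ⟨u, huW, hu, he⟩ := exists_bisect (Submodule.span ℝ (range v))ᗮ
      (by rw [finrank_perp hv]; omega) (chamber v)
      (ne_top_of_le_ne_top hfin (setLIntegral_le_lintegral _ _))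
    have hu0 : u ≠ 0 := fun h => by simp [h] at hu
    have hgs := half_split hu0 (chamber v) g
    have hfs := half_split hu0 (chamber v) f
    obtain ⟨σ, hσ, hσg, hσf⟩ : ∃ σ, (σ = u ∨ σ = -u) ∧
        (∫⁻ x in chamber v ∩ {x | 0 < ⟪σ, x⟫}, g x) * 2 ≤ ∫⁻ x in chamber v, g x ∧
        (∫⁻ x in chamber v ∩ {x | 0 < ⟪σ, x⟫}, f x) * 2 = ∫⁻ x in chamber v, f x := by
      rcases le_total (∫⁻ x in chamber v ∩ {x | 0 < ⟪u, x⟫}, g x)
        (∫⁻ x in chamber v ∩ {x | 0 < ⟪-u, x⟫}, g x) with h | h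
      · refine ⟨u, Or.inl rfl, ?_, ?_⟩
        · rw [mul_two, ← hgs]; exact add_le_add le_rfl h
        · rw [mul_two, ← hfs]; exact congrArg ((∫⁻ x in chamber v ∩ {x | 0 < ⟪u, x⟫}, f x) + ·) he
      · refine ⟨-u, Or.inr rfl, ?_, ?_⟩
        · rw [mul_two, ← hgs]; exact add_le_add h le_rfl
        · rw [mul_two, ← hfs]
          exact congrArg (· + ∫⁻ x in chamber v ∩ {x | 0 < ⟪-u, x⟫}, f x) he.symm
    refine ⟨Fin.cons σ v, orthonormal_cons hv ?_ (fun i => ?_), ?_, ?_⟩
    · rcases hσ with rfl | rfl <;> simp [hu]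
    · rcases hσ with rfl | rfl <;> simp [inner_perp huW i, inner_neg_right]
    · rw [chamber_cons, pow_succ', ← mul_assoc, hσf, hvf]
    · rw [chamber_cons, pow_succ', ← mul_assoc]
      exact (mul_le_mul' hσg le_rfl).trans hvg

/-- The inequality with the factor `2 ^ (1/n)`. -/
theorem radial_sharp_lintegral {m : ℕ} (hm : 1 ≤ m) {Ψ w : E (m + 1) → ℝ} (hΨ : Measurable Ψ)
    (hΨ0 : ∀ x, 0 ≤ Ψ x) (hΨb : ∀ K, IsCompact K → ∃ M, ∀ x ∈ K, Ψ x ≤ M)
    (hrad : ∀ x y, ‖x‖ ≤ ‖y‖ → Ψ x ≤ Ψ y)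
    (hw : ContDiff ℝ 1 w) (hc : HasCompactSupport w) (h0 : ∀ x, 0 ≤ w x)
    (hfin : ∫⁻ x, ENNReal.ofReal ((Ψ x * w x) ^ (((m + 1 : ℕ) : ℝ) / (((m + 1 : ℕ) : ℝ) - 1))) ≠ ∞) :
    ENNReal.ofReal (isoConst (m + 1))
        * (∫⁻ x, ENNReal.ofReal ((Ψ x * w x) ^ (((m + 1 : ℕ) : ℝ) / (((m + 1 : ℕ) : ℝ) - 1))))
            ^ ((((m + 1 : ℕ) : ℝ) - 1) / ((m + 1 : ℕ) : ℝ))
      ≤ ENNReal.ofReal ((2 : ℝ) ^ (((m + 1 : ℕ) : ℝ)⁻¹))
          * ∫⁻ x, ENNReal.ofReal (Ψ x * ‖fderiv ℝ w x‖) := by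
  set N : ℝ := ((m + 1 : ℕ) : ℝ) with hN
  have hN0 : 0 < N := by rw [hN]; positivity
  have hN1 : 0 < N - 1 := by
    have : (1 : ℝ) ≤ m := by exact_mod_cast hm
    rw [hN]; push_cast; linarith
  set a : ℝ := (N - 1) / N with ha
  have ha0 : 0 ≤ a := (div_pos hN1 hN0).le
  have ha1 : a ≤ 1 := by rw [ha, div_le_one hN0]; linarith
  set f : E (m + 1) → ℝ≥0∞ := fun x => ENNReal.ofReal ((Ψ x * w x) ^ (N / (N - 1)))
  set g : E (m + 1) → ℝ≥0∞ := fun x => ENNReal.ofReal (Ψ x * ‖fderiv ℝ w x‖)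
  obtain ⟨v, hv, hvf, hvg⟩ := exists_chamber hfin g m (by omega)
  obtain ⟨u₀, hu₀W, hu₀⟩ : ∃ u ∈ (Submodule.span ℝ (range v))ᗮ, u ≠ 0 := by
    refine Submodule.exists_mem_ne_zero_of_ne_bot fun h => ?_
    have h' := finrank_perp hv
    rw [h, finrank_bot] at h'
    omega
  set u := ‖u₀‖⁻¹ • u₀
  have huW : u ∈ (Submodule.span ℝ (range v))ᗮ := Submodule.smul_mem _ _ hu₀W
  have hu : ‖u‖ = 1 := norm_smul_inv_norm hu₀
  have hu0 : u ≠ 0 := fun h => by simp [h] at hu
  have key : ∀ σ, (σ = u ∨ σ = -u) → ENNReal.ofReal (isoConst (m + 1) / 2)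
      * (∫⁻ x in chamber v ∩ {x | 0 < ⟪σ, x⟫}, f x) ^ a
      ≤ ∫⁻ x in chamber v ∩ {x | 0 < ⟪σ, x⟫}, g x := by
    intro σ hσ
    have hon : Orthonormal ℝ (Fin.cons σ v : Fin (m + 1) → E (m + 1)) := by
      refine orthonormal_cons hv ?_ fun i => ?_
      · rcases hσ with rfl | rfl <;> simp [hu]
      · rcases hσ with rfl | rfl <;> simp [inner_perp huW i, inner_neg_right]
    set b := OrthonormalBasis.mk hon
      (le_of_eq (hon.linearIndependent.span_eq_top_of_card_eq_finrank' (by simp)).symm)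
    have hb : orth b = chamber v ∩ {x | 0 < ⟪σ, x⟫} := by
      rw [← chamber_cons]
      simp [orth, chamber, b]
    rw [← hb]
    exact orth_bound b (by omega) hΨ hΨ0 hΨb
      (fun x hx y hy => hrad _ _ (norm_le_add b hx hy)) hw hc h0
  have h2 : ENNReal.ofReal (isoConst (m + 1) / 2) * (∫⁻ x in chamber v, f x) ^ a
      ≤ ∫⁻ x in chamber v, g x := by
    rw [← half_split hu0 (chamber v) f, ← half_split hu0 (chamber v) g]
    refine (mul_le_mul' le_rfl (ENNReal.rpow_add_le_add_rpow _ _ ha0 ha1)).trans ?_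
    rw [mul_add]
    exact add_le_add (key u (Or.inl rfl)) (key (-u) (Or.inr rfl))
  have htwo : ∀ k : ℕ, (2 : ℝ≥0∞) ^ k = ENNReal.ofReal ((2 : ℝ) ^ k) := fun k => by
    rw [ENNReal.ofReal_pow (by norm_num), ENNReal.ofReal_ofNat]
  have h3 := mul_le_mul' (mul_le_mul' h2 (le_refl ((2 : ℝ≥0∞) ^ m))) (le_refl (ENNReal.ofReal ((2 : ℝ) ^ N⁻¹)))
  rw [← hvf]
  refine le_trans (le_of_eq ?_) (h3.trans ?_)
  · rw [ENNReal.mul_rpow_of_nonneg _ _ ha0, htwo,
      ENNReal.ofReal_rpow_of_nonneg (by positivity) ha0]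
    have hI : 0 ≤ isoConst (m + 1) := (isoConst_pos (by omega)).le
    have hs : isoConst (m + 1) * ((2 : ℝ) ^ m) ^ a
        = (2 : ℝ) ^ N⁻¹ * (isoConst (m + 1) / 2 * 2 ^ m) := by
      rw [← Real.rpow_natCast, ← Real.rpow_mul (by norm_num)]
      have e : (m : ℝ) * a + 1 = N⁻¹ + m := by
        rw [ha, hN]; push_cast; field_simp; ring
      have h3 : (2 : ℝ) ^ ((m : ℝ) * a) * 2 = (2 : ℝ) ^ N⁻¹ * (2 : ℝ) ^ (m : ℝ) := by
        rw [← Real.rpow_add two_pos, ← e, Real.rpow_add_one two_pos.ne']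
      linear_combination (isoConst (m + 1) / 2) * h3
    calc ENNReal.ofReal (isoConst (m + 1))
          * ((∫⁻ x in chamber v, f x) ^ a * ENNReal.ofReal (((2 : ℝ) ^ m) ^ a))
        = ENNReal.ofReal (isoConst (m + 1) * ((2 : ℝ) ^ m) ^ a)
            * (∫⁻ x in chamber v, f x) ^ a := by
          rw [ENNReal.ofReal_mul hI]; ring
      _ = _ := by
          rw [hs, ENNReal.ofReal_mul (by positivity),
            ENNReal.ofReal_mul (by positivity : (0 : ℝ) ≤ isoConst (m + 1) / 2)]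
          ring
  · rw [mul_comm]
    exact mul_le_mul' le_rfl hvg

end Vale.Agent.P219
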