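import Vale.Agent.P219.Sobolev

/-!
# P219: isoperimetric inequality for conformally flat metrics of nonpositive curvature

For `g = e^{2u}δ` and `ψ = e^{(n-1)u}` apply the Euclidean inequality to `ψ w`. The error term
`∫ w ‖Dψ‖` is bounded by integrating the divergence of `ψ X`, where `X` is the regularised
direction of `∇u`: nonpositive sectional curvature gives
`div (ψ X) ≥ (n-1)/2 ψ (‖Du‖ - ε)`.
-/

namespace Vale.Agent.P219

open MeasureTheory Set Filter Topology
open scoped RealInnerProductSpace ContDiff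

variable {n : ℕ}

/-- The standard basis. -/
noncomputable def e (i : Fin n) : E n := EuclideanSpace.single i (1 : ℝ)

lemma sum_e (x : E n) : ∑ i, x i • e i = x := by
  simpa [e] using (EuclideanSpace.basisFun (Fin n) ℝ).sum_repr x

lemma clm_sum (l : E n →L[ℝ] ℝ) (x : E n) : l x = ∑ i, x i * l (e i) := by
  conv_lhs => rw [← sum_e x]
  simp

/-- A function continuous on an open set which vanishes outside a compact subset of it. -/
lemma glue_continuous {F : Type*} [NormedAddCommGroup F] {U K : Set (E n)} (hU : IsOpen U)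
    (hK : IsClosed K) (hKU : K ⊆ U) {f : E n → F} (hf : ContinuousOn f U)
    (h0 : ∀ x, x ∉ K → f x = 0) : Continuous f := by
  refine continuous_iff_continuousAt.2 fun x => ?_
  by_cases hx : x ∈ K
  · exact hf.continuousAt (hU.mem_nhds (hKU hx))
  · exact (continuousAt_const (y := (0 : F))).congr
      ((hK.isOpen_compl.eventually_mem hx).mono fun y hy => (h0 y hy).symm)

lemma glue_integrable {U K : Set (E n)} (hU : IsOpen U) (hK : IsCompact K) (hKU : K ⊆ U)
    {f : E n → ℝ} (hf : ContinuousOn f U) (h0 : ∀ x, x ∉ K → f x = 0) : Integrable f :=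
  (glue_continuous hU hK.isClosed hKU hf h0).integrable_of_hasCompactSupport
    (HasCompactSupport.intro hK h0)

/-- A smooth function on an open set times a factor supported in a compact subset of it. -/
lemma glue_contDiff {U K : Set (E n)} (hU : IsOpen U) (hK : IsClosed K) (hKU : K ⊆ U)
    {f : E n → ℝ} (hf : ContDiffOn ℝ 1 f U) (h0 : ∀ x, x ∉ K → f x = 0) : ContDiff ℝ 1 f := by
  refine contDiff_iff_contDiffAt.2 fun x => ?_
  by_cases hx : x ∈ K
  · exact hf.contDiffAt (hU.mem_nhds (hKU hx))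
  · exact (contDiffAt_const (c := (0 : ℝ))).congr_of_eventuallyEq
      ((hK.isOpen_compl.eventually_mem hx).mono fun y hy => h0 y hy)

/-- The weight `e^{(n-1)u}`. -/
noncomputable def psi (u : E n → ℝ) (x : E n) : ℝ := Real.exp (((n : ℝ) - 1) * u x)

section

variable {U : Set (E n)} {u w : E n → ℝ} (hU : IsOpen U) (hu : ContDiffOn ℝ 1 u U)
  (hw : ContDiff ℝ 1 w) (hc : HasCompactSupport w) (hs : tsupport w ⊆ U) (h0 : ∀ x, 0 ≤ w x)

include hu in
lemma psi_contDiffOn : ContDiffOn ℝ 1 (psi u) U :=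
  Real.contDiff_exp.comp_contDiffOn (contDiffOn_const.mul hu)

include hU hu in
lemma psi_hasFDerivAt {x : E n} (hx : x ∈ U) :
    HasFDerivAt (psi u) ((psi u x * ((n : ℝ) - 1)) • fderiv ℝ u x) x := by
  have h := (((hu.differentiableOn one_ne_zero x hx).differentiableAt
    (hU.mem_nhds hx)).hasFDerivAt.const_mul ((n : ℝ) - 1)).exp
  rw [smul_smul] at h
  exact h

include hU hu hw hc hs h0 in
/-- Integration of the divergence of `ψ w X`. -/
lemma div_bound {X : E n → E n} (hX : ContDiffOn ℝ 1 X U) (hX1 : ∀ x, ‖X x‖ ≤ 1)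
    {G : E n → ℝ} (hGc : ContinuousOn G U)
    (hG : ∀ x ∈ U, G x ≤ ∑ i, fderiv ℝ (fun y => X y i) x (e i)
      + ((n : ℝ) - 1) * fderiv ℝ u x (X x)) :
    ∫ x, psi u x * w x * G x ≤ ∫ x, psi u x * ‖fderiv ℝ w x‖ := by
  set K := tsupport w
  have hK : IsCompact K := hc
  have hXi : ∀ i, ContDiffOn ℝ 1 (fun y => X y i) U := fun i =>
    (contDiff_piLp_apply (p := 2) (i := i)).comp_contDiffOn hX
  have hψ := psi_contDiffOn hu
  have hw0 : ∀ x, x ∉ K → w x = 0 := fun x hx => image_eq_zero_of_notMem_tsupport hx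
  set f : Fin n → E n → ℝ := fun i x => psi u x * w x * X x i with hf
  have hfC : ∀ i, ContDiff ℝ 1 (f i) := fun i =>
    glue_contDiff hU hK.isClosed hs ((hψ.mul hw.contDiffOn).mul (hXi i))
      (fun x hx => by simp [hf, hw0 x hx])
  have hfs : ∀ i, HasCompactSupport (f i) := fun i =>
    HasCompactSupport.intro hK fun x hx => by simp [hf, hw0 x hx]
  have hdfi : ∀ i, Integrable fun x => fderiv ℝ (f i) x (e i) := fun i =>
    (((hfC i).continuous_fderiv one_ne_zero).clm_apply continuous_const).integrable_of_hasCompactSupport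
      ((hfs i).fderiv_apply ℝ (e i))
  have hzero : ∀ i, ∫ x, fderiv ℝ (f i) x (e i) = 0 := by
    intro i
    have h := integral_mul_fderiv_eq_neg_fderiv_mul_of_integrable
      (μ := (volume : Measure (E n))) (f := fun _ : E n => (1 : ℝ)) (g := f i) (v := e i)
      (by simp) (by simpa using hdfi i)
      (by simpa using (hfC i).continuous.integrable_of_hasCompactSupport (hfs i))
      (fun x _ => differentiableAt_const 1) (fun x _ => (hfC i).differentiable one_ne_zero x)
    simpa using h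
  have hi1 : Integrable fun x => psi u x * w x * G x :=
    glue_integrable hU hK hs ((hψ.continuousOn.mul hw.continuous.continuousOn).mul hGc)
      (fun x hx => by simp [hw0 x hx])
  have hi2 : Integrable fun x => psi u x * ‖fderiv ℝ w x‖ :=
    glue_integrable hU hK hs
      (hψ.continuousOn.mul (hw.continuous_fderiv one_ne_zero).norm.continuousOn)
      (fun x hx => by rw [fderiv_of_notMem_tsupport ℝ hx]; simp)
  have hsum : ∫ x, ∑ i, fderiv ℝ (f i) x (e i) = 0 := by
    rw [integral_finsetSum _ fun i _ => hdfi i]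
    simp [hzero]
  have key : ∀ x, psi u x * w x * G x
      ≤ ∑ i, fderiv ℝ (f i) x (e i) + psi u x * ‖fderiv ℝ w x‖ := by
    intro x
    by_cases hx : x ∈ K
    · have hxU := hs hx
      have hd : ∀ i, fderiv ℝ (f i) x (e i) = psi u x * X x i * fderiv ℝ w x (e i)
          + psi u x * w x * (fderiv ℝ (fun y => X y i) x (e i)
            + ((n : ℝ) - 1) * (X x i * fderiv ℝ u x (e i))) := by
        intro i
        have h := ((psi_hasFDerivAt hU hu hxU).mul
          (hw.differentiable one_ne_zero x).hasFDerivAt).mul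
          (((hXi i).differentiableOn one_ne_zero x hxU).differentiableAt
            (hU.mem_nhds hxU)).hasFDerivAt
        rw [show fderiv ℝ (f i) x = _ from h.fderiv]
        simp only [add_apply, smul_apply, smul_eq_mul, Pi.mul_apply]
        ring
      have hψ0 : 0 < psi u x := Real.exp_pos _
      simp only [hd, Finset.sum_add_distrib, ← Finset.mul_sum, mul_assoc]
      rw [← clm_sum (fderiv ℝ w x) (X x), ← clm_sum (fderiv ℝ u x) (X x)]
      have h1 : -‖fderiv ℝ w x‖ ≤ fderiv ℝ w x (X x) := by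
        have : ‖fderiv ℝ w x (X x)‖ ≤ ‖fderiv ℝ w x‖ :=
          ((fderiv ℝ w x).le_opNorm _).trans (mul_le_of_le_one_right (norm_nonneg _) (hX1 x))
        exact (abs_le.1 this).1
      have h2 := mul_le_mul_of_nonneg_left (hG x hxU) (mul_nonneg hψ0.le (h0 x))
      nlinarith [mul_le_mul_of_nonneg_left h1 hψ0.le]
    · have hz : ∀ i, fderiv ℝ (f i) x = 0 := fun i => by
        refine fderiv_of_notMem_tsupport ℝ fun h => hx ?_
        refine closure_mono (fun y hy => ?_) h
        simp only [hf, Function.mem_support, ne_eq, mul_eq_zero, not_or] at hy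
        exact hy.1.2
      simp [hw0 x hx, hz, fderiv_of_notMem_tsupport ℝ hx]
  have h := integral_mono hi1 ((integrable_finsetSum _ fun i _ => hdfi i).add hi2) key
  simp only [Pi.add_apply] at h
  rw [integral_add (integrable_finsetSum _ fun i _ => hdfi i) hi2, hsum, zero_add] at h
  exact h

include hU hu hw hc hs h0 in
/-- From the bound on the error term to the isoperimetric inequality. -/
lemma iso_of_bound (hn : 2 ≤ n) {C : ℝ}
    (hC : ∫ x, psi u x * w x * (((n : ℝ) - 1) * ‖fderiv ℝ u x‖)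
      ≤ C * ∫ x, psi u x * ‖fderiv ℝ w x‖) :
    isoConst n * (∫ x, Real.exp (n * u x) * w x ^ ((n : ℝ) / (n - 1))) ^ ((n - 1 : ℝ) / n)
      ≤ (1 + C) * ∫ x, psi u x * ‖fderiv ℝ w x‖ := by
  set K := tsupport w
  have hK : IsCompact K := hc
  have hn1 : (0 : ℝ) < (n : ℝ) - 1 := by
    have : (2 : ℝ) ≤ n := by exact_mod_cast hn
    linarith
  have hψ := psi_contDiffOn hu
  have hw0 : ∀ x, x ∉ K → w x = 0 := fun x hx => image_eq_zero_of_notMem_tsupport hx
  set v : E n → ℝ := fun x => psi u x * w x with hv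
  have hvC : ContDiff ℝ 1 v :=
    glue_contDiff hU hK.isClosed hs (hψ.mul hw.contDiffOn) (fun x hx => by simp [hv, hw0 x hx])
  have hvs : HasCompactSupport v :=
    HasCompactSupport.intro hK fun x hx => by simp [hv, hw0 x hx]
  have hv0 : ∀ x, 0 ≤ v x := fun x => mul_nonneg (Real.exp_pos _).le (h0 x)
  have hS := sobolev hn hvC hvs hv0
  have hp : ∀ x, v x ^ ((n : ℝ) / (n - 1))
      = Real.exp (n * u x) * w x ^ ((n : ℝ) / (n - 1)) := by
    intro x
    simp only [hv, psi]
    rw [Real.mul_rpow (Real.exp_pos _).le (h0 x), ← Real.exp_mul]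
    congr 2
    field_simp
  simp only [hp] at hS
  refine hS.trans ?_
  have hi2 : Integrable fun x => psi u x * ‖fderiv ℝ w x‖ :=
    glue_integrable hU hK hs
      (hψ.continuousOn.mul (hw.continuous_fderiv one_ne_zero).norm.continuousOn)
      (fun x hx => by rw [fderiv_of_notMem_tsupport ℝ hx]; simp)
  have hi3 : Integrable fun x => psi u x * w x * (((n : ℝ) - 1) * ‖fderiv ℝ u x‖) :=
    glue_integrable hU hK hs ((hψ.continuousOn.mul hw.continuous.continuousOn).mul
      (continuousOn_const.mul (hu.continuousOn_fderiv_of_isOpen hU le_rfl).norm))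
      (fun x hx => by simp [hw0 x hx])
  refine (integral_mono
    ((hvC.continuous_fderiv one_ne_zero).norm.integrable_of_hasCompactSupport
      (hvs.fderiv ℝ).norm) (hi2.add hi3) fun x => ?_).trans ?_
  · by_cases hx : x ∈ K
    · have h := (psi_hasFDerivAt hU hu (hs hx)).mul (hw.differentiable one_ne_zero x).hasFDerivAt
      show ‖fderiv ℝ v x‖ ≤ _
      rw [show fderiv ℝ v x = _ from h.fderiv]
      refine (norm_add_le _ _).trans (le_of_eq ?_)
      have hψp : 0 ≤ psi u x := (Real.exp_pos _).le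
      rw [norm_smul, norm_smul, norm_smul, Real.norm_of_nonneg hψp,
        Real.norm_of_nonneg (h0 x), Real.norm_of_nonneg (mul_nonneg hψp hn1.le)]
      simp only [psi, Pi.add_apply]
      ring
    · have hz : fderiv ℝ v x = 0 := fderiv_of_notMem_tsupport ℝ fun h => hx
        (closure_mono (fun y hy => by
          simp only [hv, Function.mem_support, ne_eq, mul_eq_zero, not_or] at hy
          exact hy.2) h)
      simp [hz, hw0 x hx, fderiv_of_notMem_tsupport ℝ hx]
  · simp only [Pi.add_apply]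
    rw [integral_add hi2 hi3]
    linarith

end

/-- If all pairs sum to at least `-L`, the whole sum is at least `-card · L / 2`. -/
lemma pair_sum {ι : Type*} [DecidableEq ι] {s : Finset ι} (hs : 2 ≤ s.card) {c : ι → ℝ} {L : ℝ}
    (h : ∀ i ∈ s, ∀ j ∈ s, i ≠ j → 0 ≤ c i + c j + L) :
    -((s.card : ℝ) * L / 2) ≤ ∑ i ∈ s, c i := by
  have h1 : 0 ≤ ∑ i ∈ s, ∑ j ∈ s.erase i, (c i + c j + L) :=
    Finset.sum_nonneg fun i hi => Finset.sum_nonneg fun j hj =>
      h i hi j (Finset.mem_of_mem_erase hj) (Finset.ne_of_mem_erase hj).symm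
  have h2 : ∀ i ∈ s, ∑ j ∈ s.erase i, (c i + c j + L)
      = ((s.card : ℝ) - 2) * c i + ∑ j ∈ s, c j + ((s.card : ℝ) - 1) * L := by
    intro i hi
    rw [Finset.sum_add_distrib, Finset.sum_add_distrib, Finset.sum_const, Finset.sum_const,
      Finset.sum_erase_eq_sub hi, Finset.card_erase_of_mem hi, nsmul_eq_mul, nsmul_eq_mul,
      Nat.cast_sub (by omega), Nat.cast_one]
    ring
  rw [Finset.sum_congr rfl h2, Finset.sum_add_distrib, Finset.sum_add_distrib, ← Finset.mul_sum,
    Finset.sum_const, Finset.sum_const, nsmul_eq_mul, nsmul_eq_mul] at h1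
  have hc : (2 : ℝ) ≤ s.card := by exact_mod_cast hs
  nlinarith

/-- The trace of a bilinear map in any orthonormal basis. -/
lemma trace_eq (B : E n →L[ℝ] E n →L[ℝ] ℝ) (b : OrthonormalBasis (Fin n) ℝ (E n)) :
    ∑ i, B (b i) (b i) = ∑ i, B (e i) (e i) := by
  have h : ∀ x y : E n, B x y = ∑ k, ∑ l, x k * y l * B (e k) (e l) := by
    intro x y
    rw [clm_sum (B x) y, Finset.sum_comm]
    refine Finset.sum_congr rfl fun l _ => ?_
    rw [show B x (e l) = (B.flip (e l)) x from rfl, clm_sum (B.flip (e l)) x, Finset.mul_sum]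
    refine Finset.sum_congr rfl fun k _ => ?_
    rw [ContinuousLinearMap.flip_apply]; ring
  simp only [h (b _) (b _)]
  rw [Finset.sum_comm]
  refine Finset.sum_congr rfl fun k _ => ?_
  rw [Finset.sum_comm, Finset.sum_eq_single k]
  · rw [← Finset.sum_mul]
    have := b.sum_inner_mul_inner (e k) (e k)
    simp [e, PiLp.inner_apply] at this
    simp [this]
  · intro l _ hl
    rw [← Finset.sum_mul]
    have := b.sum_inner_mul_inner (e k) (e l)
    simp [e, PiLp.inner_apply, hl.symm] at this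
    simp [this]
  · simp

/-- The two consequences of nonpositive sectional curvature. -/
lemma curvature_bounds (hn : 3 ≤ n) (B : E n →L[ℝ] E n →L[ℝ] ℝ) (g : E n)
    (h : ∀ a b : E n, ‖a‖ = 1 → ‖b‖ = 1 → ⟪a, b⟫ = 0 →
      0 ≤ B a a + B b b - ⟪g, a⟫ ^ 2 - ⟪g, b⟫ ^ 2 + ‖g‖ ^ 2) :
    -(((n : ℝ) - 2) / 2 * ‖g‖ ^ 2) ≤ ∑ i, B (e i) (e i) ∧
      -(((n : ℝ) - 1) / 2 * ‖g‖ ^ 4) ≤ ‖g‖ ^ 2 * (∑ i, B (e i) (e i)) - B g g := by
  classical
  have hpair : ∀ b : OrthonormalBasis (Fin n) ℝ (E n), ∀ i j, i ≠ j →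
      0 ≤ (B (b i) (b i) - ⟪g, b i⟫ ^ 2) + (B (b j) (b j) - ⟪g, b j⟫ ^ 2) + ‖g‖ ^ 2 := by
    intro b i j hij
    linarith [h (b i) (b j) (b.orthonormal.1 i) (b.orthonormal.1 j) (b.orthonormal.2 hij)]
  constructor
  · set b := EuclideanSpace.basisFun (Fin n) ℝ
    have h1 := pair_sum (s := Finset.univ) (by simp; omega) (fun i _ j _ => hpair b i j)
    rw [Finset.sum_sub_distrib, trace_eq, b.sum_sq_inner_left, Finset.card_univ,
      Fintype.card_fin] at h1
    linarith
  · rcases eq_or_ne g 0 with hg | hg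
    · simp [hg]
    set ν := ‖g‖⁻¹ • g
    have hν : ‖ν‖ = 1 := by
      rw [norm_smul, norm_inv, norm_norm, inv_mul_cancel₀ (norm_ne_zero_iff.2 hg)]
    have i0 : Fin n := ⟨0, by omega⟩
    obtain ⟨b, hb⟩ := Orthonormal.exists_orthonormalBasis_extension_of_card_eq
      (𝕜 := ℝ) (v := fun _ : Fin n => ν) (s := ({i0} : Set (Fin n)))
      (by simp [finrank_euclideanSpace]) ⟨fun i => hν, fun i j hij =>
        absurd (Subtype.ext (i.2.trans j.2.symm)) hij⟩
    have hb0 : b i0 = ν := hb i0 rfl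
    have hg' : g = ‖g‖ • b i0 := by
      rw [hb0, smul_smul, mul_inv_cancel₀ (norm_ne_zero_iff.2 hg), one_smul]
    have hgi : ∀ i, i ≠ i0 → ⟪g, b i⟫ = 0 := by
      intro i hi
      rw [hg', real_inner_smul_left, b.orthonormal.2 (Ne.symm hi), mul_zero]
    have h1 := pair_sum (s := Finset.univ.erase i0)
      (by rw [Finset.card_erase_of_mem (Finset.mem_univ _), Finset.card_univ, Fintype.card_fin]
          omega)
      (fun i _ j _ => hpair b i j)
    rw [Finset.sum_congr rfl (fun i hi => show B (b i) (b i) - ⟪g, b i⟫ ^ 2 = B (b i) (b i) by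
        rw [hgi i (Finset.ne_of_mem_erase hi)]; ring),
      Finset.sum_erase_eq_sub (Finset.mem_univ _), Finset.card_erase_of_mem (Finset.mem_univ _),
      Finset.card_univ, Fintype.card_fin, trace_eq, Nat.cast_sub (by omega), Nat.cast_one] at h1
    have hBg : B g g = ‖g‖ ^ 2 * B (b i0) (b i0) := by
      conv_lhs => rw [hg']
      simp only [map_smul, smul_apply, smul_eq_mul]
      ring
    rw [hBg, ← mul_sub]
    have := mul_le_mul_of_nonneg_left h1 (sq_nonneg ‖g‖)
    linarith

/-- The Euclidean gradient. -/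
noncomputable def grd (u : E n → ℝ) (x : E n) : E n :=
  (InnerProductSpace.toDual ℝ (E n)).symm (fderiv ℝ u x)

lemma inner_grd (u : E n → ℝ) (x v : E n) : ⟪grd u x, v⟫ = fderiv ℝ u x v :=
  InnerProductSpace.toDual_symm_apply

lemma norm_grd (u : E n → ℝ) (x : E n) : ‖grd u x‖ = ‖fderiv ℝ u x‖ :=
  LinearIsometryEquiv.norm_map _ _

lemma grd_apply (u : E n → ℝ) (x : E n) (i : Fin n) : grd u x i = fderiv ℝ u x (e i) := by
  rw [← inner_grd, e, EuclideanSpace.inner_single_right]
  simp

/-- The main inequality. -/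
theorem conformal_iso (hn : 3 ≤ n) {U : Set (E n)} {u w : E n → ℝ} (hU : IsOpen U)
    (hu : ContDiffOn ℝ 2 u U)
    (hsec : ∀ x ∈ U, ∀ a b : E n, ‖a‖ = 1 → ‖b‖ = 1 → ⟪a, b⟫ = 0 →
      0 ≤ fderiv ℝ (fderiv ℝ u) x a a + fderiv ℝ (fderiv ℝ u) x b b - fderiv ℝ u x a ^ 2
        - fderiv ℝ u x b ^ 2 + ‖fderiv ℝ u x‖ ^ 2)
    (hw : ContDiff ℝ 1 w) (hc : HasCompactSupport w) (hs : tsupport w ⊆ U)
    (h0 : ∀ x, 0 ≤ w x) :
    isoConst n * (∫ x, Real.exp (n * u x) * w x ^ ((n : ℝ) / (n - 1))) ^ ((n - 1 : ℝ) / n)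
      ≤ 3 * ∫ x, psi u x * ‖fderiv ℝ w x‖ := by
  have hu1 : ContDiffOn ℝ 1 u U := hu.of_le one_le_two
  have hn1 : (0 : ℝ) < (n : ℝ) - 1 := by
    have : (3 : ℝ) ≤ n := by exact_mod_cast hn
    linarith
  set K := tsupport w
  have hK : IsCompact K := hc
  have hDu : ContDiffOn ℝ 1 (fderiv ℝ u) U := hu.fderiv_of_isOpen hU (by norm_num)
  have hgrd : ContDiffOn ℝ 1 (grd u) U := by
    rw [contDiffOn_piLp]
    intro i
    simp only [grd_apply]
    exact hDu.clm_apply contDiffOn_const
  have hbound : ∀ ε : ℝ, 0 < ε →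
      ∫ x, psi u x * w x * (((n : ℝ) - 1) / 2 * (‖fderiv ℝ u x‖ - ε))
        ≤ ∫ x, psi u x * ‖fderiv ℝ w x‖ := by
    intro ε hε
    set r : E n → ℝ := fun x => √(ε ^ 2 + ‖grd u x‖ ^ 2) with hr
    have hr0 : ∀ x, 0 < r x := fun x => Real.sqrt_pos.2 (by positivity)
    have hrC : ContDiffOn ℝ 1 r U :=
      (contDiffOn_const.add (hgrd.norm_sq ℝ)).sqrt fun x _ => by positivity
    refine div_bound hU hu1 hw hc hs h0 (X := fun x => (r x)⁻¹ • grd u x)
      ((hrC.inv fun x _ => (hr0 x).ne').smul hgrd) (fun x => ?_)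
      (continuousOn_const.mul ((hDu.continuousOn.norm).sub continuousOn_const)) (fun x hx => ?_)
    · rw [norm_smul, norm_inv, Real.norm_of_nonneg (hr0 x).le, inv_mul_le_one₀ (hr0 x)]
      exact (le_of_eq (Real.sqrt_sq (norm_nonneg _)).symm).trans
        (Real.sqrt_le_sqrt (by nlinarith))
    · set g := grd u x with hg
      set B := fderiv ℝ (fderiv ℝ u) x
      have hBd := ((hDu.differentiableOn one_ne_zero x hx).differentiableAt
        (hU.mem_nhds hx)).hasFDerivAt
      have hgi : ∀ i, HasFDerivAt (fun y => grd u y i) (B.flip (e i)) x := by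
        intro i
        simp only [grd_apply]
        have := hBd.clm_apply (hasFDerivAt_const (e i) x)
        simpa using this
      have hsq : HasFDerivAt (fun y => ε ^ 2 + ‖grd u y‖ ^ 2)
          (∑ i, (2 * g i) • B.flip (e i)) x := by
        have hfun : (fun y => ε ^ 2 + ‖grd u y‖ ^ 2)
            = fun y => ε ^ 2 + ∑ i, grd u y i ^ 2 := by
          funext y; rw [EuclideanSpace.real_norm_sq_eq]
        rw [hfun]
        refine HasFDerivAt.const_add _ (HasFDerivAt.fun_sum fun i _ => ?_)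
        simpa [hg] using (hgi i).pow 2
      have hrd : HasFDerivAt (fun y => (r y)⁻¹) _ x :=
        (hasDerivAt_inv (hr0 x).ne').comp_hasFDerivAt x
          (show HasFDerivAt r _ x from hsq.sqrt (by positivity))
      have hXi : ∀ i, fderiv ℝ (fun y => ((r y)⁻¹ • grd u y) i) x (e i)
          = (r x)⁻¹ * B (e i) (e i) - g i * B (e i) g / r x ^ 3 := by
        intro i
        have h := hrd.mul (hgi i)
        rw [show fderiv ℝ (fun y => ((r y)⁻¹ • grd u y) i) x = _ from h.fderiv]
        have hBg : ∑ j, g j * B (e i) (e j) = B (e i) g := (clm_sum (B (e i)) g).symm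
        simp only [add_apply, smul_apply, sum_apply,
          ContinuousLinearMap.flip_apply, smul_eq_mul, mul_assoc, ← Finset.mul_sum, hBg]
        rw [← hg]
        have := (hr0 x).ne'
        field_simp
        ring
      have hsum : ∑ i, g i * B (e i) g = B g g := (clm_sum (B.flip g) g).symm
      simp only [hXi, Finset.sum_sub_distrib, ← Finset.mul_sum, ← Finset.sum_div, hsum]
      rw [map_smul, smul_eq_mul, show fderiv ℝ u x g = ‖g‖ ^ 2 by
        rw [← inner_grd, ← hg, real_inner_self_eq_norm_sq]]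
      have hng : ‖fderiv ℝ u x‖ = ‖g‖ := (norm_grd u x).symm
      obtain ⟨hT, hP⟩ := curvature_bounds hn B g fun a b ha hb hab => by
        rw [hg, inner_grd, inner_grd, norm_grd]
        exact hsec x hx a b ha hb hab
      rw [hng]
      set T := ∑ i, B (e i) (e i)
      have hr2 : r x ^ 2 = ε ^ 2 + ‖g‖ ^ 2 := Real.sq_sqrt (by positivity)
      have hre : ε ≤ r x := by
        calc ε = √(ε ^ 2) := (Real.sqrt_sq hε.le).symm
          _ ≤ r x := Real.sqrt_le_sqrt (by nlinarith)
      have hrg : ‖g‖ ≤ r x := by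
        calc ‖g‖ = √(‖g‖ ^ 2) := (Real.sqrt_sq (norm_nonneg _)).symm
          _ ≤ r x := Real.sqrt_le_sqrt (by nlinarith)
      have hrp := hr0 x
      rw [← sub_nonneg]
      have hexp : (r x)⁻¹ * T - B g g / r x ^ 3 + ((n : ℝ) - 1) * ((r x)⁻¹ * ‖g‖ ^ 2)
            - ((n : ℝ) - 1) / 2 * (‖g‖ - ε)
          = (r x ^ 2 * T - B g g + ((n : ℝ) - 1) * r x ^ 2 * ‖g‖ ^ 2
            - ((n : ℝ) - 1) / 2 * (‖g‖ - ε) * r x ^ 3) / r x ^ 3 := by
        field_simp
      rw [hexp]
      refine div_nonneg ?_ (by positivity)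
      have h1 : -(((n : ℝ) - 1) / 2 * ‖g‖ ^ 2 * r x ^ 2) ≤ r x ^ 2 * T - B g g := by
        rw [hr2]
        nlinarith [mul_le_mul_of_nonneg_left hT (sq_nonneg ε), sq_nonneg (ε * ‖g‖)]
      have h2 : (‖g‖ - ε) * r x ≤ ‖g‖ ^ 2 := by
        nlinarith [mul_nonneg (sub_nonneg.2 hre) (sub_nonneg.2 hrg), norm_nonneg g]
      nlinarith [mul_le_mul_of_nonneg_left h2 (mul_nonneg hn1.le (sq_nonneg (r x)))]
  have hw0 : ∀ x, x ∉ K → w x = 0 := fun x hx => image_eq_zero_of_notMem_tsupport hx
  have hψ := psi_contDiffOn hu1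
  have hi0 : Integrable fun x => psi u x * w x :=
    glue_integrable hU hK hs (hψ.continuousOn.mul hw.continuous.continuousOn)
      (fun x hx => by simp [hw0 x hx])
  have hi1 : Integrable fun x => psi u x * w x * ‖fderiv ℝ u x‖ :=
    glue_integrable hU hK hs
      ((hψ.continuousOn.mul hw.continuous.continuousOn).mul hDu.continuousOn.norm)
      (fun x hx => by simp [hw0 x hx])
  set A := ∫ x, psi u x * w x * ‖fderiv ℝ u x‖
  set M := ∫ x, psi u x * w x
  set R := ∫ x, psi u x * ‖fderiv ℝ w x‖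
  have hA : ((n : ℝ) - 1) / 2 * A ≤ R := by
    refine le_of_forall_pos_le_add fun η hη => ?_
    have hM : 0 ≤ M := integral_nonneg fun x => mul_nonneg (Real.exp_pos _).le (h0 x)
    have hε : 0 < η / (((n : ℝ) - 1) / 2 * M + 1) := by positivity
    have h := hbound _ hε
    rw [show (fun x => psi u x * w x * (((n : ℝ) - 1) / 2 * (‖fderiv ℝ u x‖
        - η / (((n : ℝ) - 1) / 2 * M + 1))))
      = fun x => ((n : ℝ) - 1) / 2 * (psi u x * w x * ‖fderiv ℝ u x‖)
        - ((n : ℝ) - 1) / 2 * (η / (((n : ℝ) - 1) / 2 * M + 1)) * (psi u x * w x) from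
        funext fun x => by ring,
      integral_sub (hi1.const_mul _) (hi0.const_mul _), integral_const_mul,
      integral_const_mul] at h
    have : ((n : ℝ) - 1) / 2 * (η / (((n : ℝ) - 1) / 2 * M + 1)) * M ≤ η := by
      rw [mul_div_assoc', div_mul_eq_mul_div, div_le_iff₀ (by positivity)]
      nlinarith
    linarith
  have h3 := iso_of_bound hU hu1 hw hc hs h0 (by omega) (C := 2) ?_
  · calc _ ≤ (1 + 2) * R := h3
      _ = 3 * R := by ring
  · rw [show (fun x => psi u x * w x * (((n : ℝ) - 1) * ‖fderiv ℝ u x‖))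
      = fun x => ((n : ℝ) - 1) * (psi u x * w x * ‖fderiv ℝ u x‖) from funext fun x => by ring,
      integral_const_mul]
    linarith

end Vale.Agent.P219
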