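import Vale.Agent.P219.Sobolev

/-!
# P219: the model isoperimetric profile

`I_κ(V) ≤ n ω^{1/n} V^{(n-1)/n} + (n-1) b V` for `κ = -b²`.
-/

namespace Vale.Agent.P219

open MeasureTheory Set Filter Topology

/-- `sn_b`. -/
noncomputable def snb (b t : ℝ) : ℝ := if b = 0 then t else Real.sinh (b * t) / b

lemma snb_hasDerivAt (b t : ℝ) : HasDerivAt (snb b) (Real.cosh (b * t)) t := by
  by_cases hb : b = 0
  · have : snb b = fun t => t := funext fun s => by simp [snb, hb]
    rw [this]; simp only [hb, zero_mul, Real.cosh_zero]; exact hasDerivAt_id' t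
  · have : snb b = fun t => Real.sinh (b * t) / b := funext fun s => by simp [snb, hb]
    rw [this]
    have h := ((hasDerivAt_id t).const_mul b).sinh.div_const b
    simpa [hb] using h

lemma snb_continuous (b : ℝ) : Continuous (snb b) :=
  continuous_iff_continuousAt.2 fun t => (snb_hasDerivAt b t).continuousAt

lemma snb_zero (b : ℝ) : snb b 0 = 0 := by simp [snb]

lemma snb_pos {b t : ℝ} (hb : 0 ≤ b) (ht : 0 < t) : 0 < snb b t := by
  unfold snb
  split
  · exact ht
  · rename_i h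
    have hb' : 0 < b := lt_of_le_of_ne hb (Ne.symm h)
    exact div_pos (Real.sinh_pos_iff.2 (mul_pos hb' ht)) hb'

lemma cosh_le {b t : ℝ} (hb : 0 ≤ b) (ht : 0 ≤ t) :
    Real.cosh (b * t) ≤ 1 + b * snb b t := by
  by_cases h : b = 0
  · simp [h]
  · have : b * snb b t = Real.sinh (b * t) := by
      simp [snb, h]; field_simp
    rw [this]
    have h1 := Real.cosh_sub_sinh (b * t)
    have h2 : Real.exp (-(b * t)) ≤ 1 := Real.exp_le_one_iff.2 (by nlinarith)
    linarith

/-- `S(r)^m ≤ (n J)^{m/n} + m b J` with `J = ∫_0^r S^m`. -/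
theorem snb_pow_le {m : ℕ} (hm : 1 ≤ m) {b r : ℝ} (hb : 0 ≤ b) (hr : 0 ≤ r) :
    snb b r ^ m ≤ (((m : ℝ) + 1) * ∫ t in (0 : ℝ)..r, snb b t ^ m) ^ ((m : ℝ) / ((m : ℝ) + 1))
      + m * b * ∫ t in (0 : ℝ)..r, snb b t ^ m := by
  obtain ⟨k, rfl⟩ : ∃ k, m = k + 1 := ⟨m - 1, by omega⟩
  set N : ℝ := ((k + 1 : ℕ) : ℝ) + 1 with hN
  have hN0 : 0 < N := by positivity
  set S := snb b with hS
  set J : ℝ → ℝ := fun x => ∫ t in (0 : ℝ)..x, S t ^ (k + 1) with hJ
  have hc : Continuous fun t => S t ^ (k + 1) := (snb_continuous b).pow _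
  have hJd : ∀ x, HasDerivAt J (S x ^ (k + 1)) x := fun x =>
    (hc.integral_hasStrictDerivAt 0 x).hasDerivAt
  have hJc : Continuous J := continuous_iff_continuousAt.2 fun x => (hJd x).continuousAt
  have hJ0 : J 0 = 0 := intervalIntegral.integral_same
  have hJpos : ∀ x, 0 < x → 0 < J x := fun x hx =>
    intervalIntegral.intervalIntegral_pos_of_pos_on (hc.intervalIntegrable 0 x)
      (fun t ht => pow_pos (snb_pos hb ht.1) _) hx
  have hle : ∀ x, 0 ≤ x → N * J x ≤ S x ^ (k + 2) := by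
    intro x hx
    have hmono : MonotoneOn (fun t => S t ^ (k + 2) - N * J t) (Ici 0) := by
      refine monotoneOn_of_hasDerivWithinAt_nonneg (convex_Ici 0)
        (((snb_continuous b).pow _).sub (hJc.const_mul N)).continuousOn
        (f' := fun t => N * S t ^ (k + 1) * Real.cosh (b * t) - N * S t ^ (k + 1))
        (fun t _ => ?_) (fun t ht => ?_)
      · refine HasDerivAt.hasDerivWithinAt ?_
        have h := ((snb_hasDerivAt b t).pow (k + 2)).sub ((hJd t).const_mul N)
        refine h.congr_deriv ?_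
        rw [show k + 2 - 1 = k + 1 by omega, hN, hS]; push_cast
        ring
      · rw [interior_Ici, mem_Ioi] at ht
        have : 0 ≤ N * S t ^ (k + 1) := mul_nonneg hN0.le (pow_nonneg (snb_pos hb ht).le _)
        nlinarith [Real.one_le_cosh (b * t)]
    have h := hmono (self_mem_Ici) hx hx
    simp only [hJ0, hS, snb_zero, mul_zero, sub_zero] at h
    rw [zero_pow (by omega)] at h
    linarith
  set a : ℝ := ((k + 1 : ℕ) : ℝ) / N with ha
  have ha0 : 0 < a := by positivity
  have hmono : MonotoneOn (fun t => (N * J t) ^ a + (k + 1 : ℕ) * b * J t - S t ^ (k + 1))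
      (Ici 0) := by
    refine monotoneOn_of_hasDerivWithinAt_nonneg (convex_Ici 0)
      ((((hJc.const_mul N).rpow_const fun _ => Or.inr ha0.le).add (hJc.const_mul _)).sub
        hc).continuousOn
      (f' := fun t => N * S t ^ (k + 1) * a * (N * J t) ^ (a - 1)
        + (k + 1 : ℕ) * b * S t ^ (k + 1) - (k + 1 : ℕ) * S t ^ k * Real.cosh (b * t))
      (fun t ht => ?_) (fun t ht => ?_)
    · rw [interior_Ici, mem_Ioi] at ht
      refine HasDerivAt.hasDerivWithinAt ?_
      have h := ((((hJd t).const_mul N).rpow_const (p := a)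
        (Or.inl (mul_pos hN0 (hJpos t ht)).ne')).add
        ((hJd t).const_mul (((k + 1 : ℕ) : ℝ) * b))).sub ((snb_hasDerivAt b t).pow (k + 1))
      refine h.congr_deriv ?_
      simp only [hS, Nat.add_sub_cancel]
    · rw [interior_Ici, mem_Ioi] at ht
      have hS0 : 0 < S t := snb_pos hb ht
      have hNJ : 0 < N * J t := mul_pos hN0 (hJpos t ht)
      have hroot : (N * J t) ^ (1 / N) ≤ S t := by
        calc (N * J t) ^ (1 / N) ≤ (S t ^ (k + 2)) ^ (1 / N) :=
              Real.rpow_le_rpow hNJ.le (hle t ht.le) (by positivity)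
          _ = S t := by
              rw [← Real.rpow_natCast, ← Real.rpow_mul hS0.le]
              rw [show ((k + 2 : ℕ) : ℝ) * (1 / N) = 1 by rw [hN]; push_cast; field_simp; ring]
              exact Real.rpow_one _
      have hone : 1 ≤ S t * (N * J t) ^ (a - 1) := by
        rw [show a - 1 = -(1 / N) by rw [ha, hN]; field_simp; ring, Real.rpow_neg hNJ.le,
          ← div_eq_mul_inv, one_le_div (Real.rpow_pos_of_pos hNJ _)]
        exact hroot
      have hch := cosh_le hb ht.le
      rw [show N * S t ^ (k + 1) * a * (N * J t) ^ (a - 1)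
        + (k + 1 : ℕ) * b * S t ^ (k + 1) - (k + 1 : ℕ) * S t ^ k * Real.cosh (b * t)
        = (k + 1 : ℕ) * S t ^ k * (S t * (N * J t) ^ (a - 1) + b * S t - Real.cosh (b * t)) by
          rw [show N * S t ^ (k + 1) * a = (N * a) * S t ^ (k + 1) by ring,
            show N * a = ((k + 1 : ℕ) : ℝ) by rw [ha]; field_simp]
          ring]
      exact mul_nonneg (mul_nonneg (Nat.cast_nonneg _) (pow_nonneg hS0.le _))
        (by rw [← hS] at hch; linarith)
  have h := hmono self_mem_Ici hr hr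
  simp only [hJ0, hS, snb_zero, mul_zero, Real.zero_rpow ha0.ne', zero_pow (Nat.succ_ne_zero k),
    add_zero, sub_zero] at h
  simp only [hJ, hS] at h
  linarith

/-- The model profile is at most the Euclidean profile plus the linear one. -/
theorem profile_le {n : ℕ} (hn : 2 ≤ n) {b r V : ℝ} (hb : 0 ≤ b) (hr : 0 ≤ r)
    {ω : ℝ} (hω : 0 ≤ ω)
    (hV : V = n * ω * ∫ t in (0 : ℝ)..r, snb b t ^ (n - 1)) :
    n * ω * snb b r ^ (n - 1)
      ≤ n * ω ^ ((n : ℝ)⁻¹) * V ^ ((n - 1 : ℝ) / n) + ((n : ℝ) - 1) * b * V := by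
  obtain ⟨m, rfl⟩ : ∃ m, n = m + 1 := ⟨n - 1, by omega⟩
  subst hV
  push_cast
  simp only [add_sub_cancel_right]
  set J := ∫ t in (0 : ℝ)..r, snb b t ^ m
  have hJ : 0 ≤ J := intervalIntegral.integral_nonneg hr fun t ht => by
    rcases eq_or_lt_of_le ht.1 with h | h
    · rw [← h, snb_zero]; exact pow_nonneg le_rfl _
    · exact pow_nonneg (snb_pos hb h).le _
  have h := snb_pow_le (m := m) (by omega) hb hr
  have e : ω ^ (((m : ℝ) + 1)⁻¹) * (((m : ℝ) + 1) * ω * J) ^ ((m : ℝ) / ((m : ℝ) + 1))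
      = ω * (((m : ℝ) + 1) * J) ^ ((m : ℝ) / ((m : ℝ) + 1)) := by
    rw [show ((m : ℝ) + 1) * ω * J = ω * (((m : ℝ) + 1) * J) by ring,
      Real.mul_rpow hω (by positivity), ← mul_assoc, ← Real.rpow_add' hω (by
        have : ((m : ℝ) + 1)⁻¹ + (m : ℝ) / ((m : ℝ) + 1) = 1 := by field_simp; ring
        rw [this]; norm_num),
      show ((m : ℝ) + 1)⁻¹ + (m : ℝ) / ((m : ℝ) + 1) = 1 by field_simp; ring, Real.rpow_one]
  rw [mul_assoc ((m : ℝ) + 1) (ω ^ _) _, e]
  nlinarith [mul_le_mul_of_nonneg_left h (mul_nonneg (by positivity : (0 : ℝ) ≤ (m : ℝ) + 1) hω)]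

end Vale.Agent.P219
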