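import Vale.Agent.P219.Conformal
import Vale.Agent.P219.Profile

/-!
# P219: conformally flat metrics with sectional curvature at most `-k²`

The calibration is `∇u / √(ε² + ‖∇u‖² + k² e^{2u})`.
-/

namespace Vale.Agent.P219

open MeasureTheory Set Filter Topology
open scoped RealInnerProductSpace ContDiff

variable {n : ℕ}

/-- The two consequences of a bound on the pair sums. -/
lemma curvature_boundsL (hn : 3 ≤ n) (B : E n →L[ℝ] E n →L[ℝ] ℝ) (g : E n) (L : ℝ)
    (h : ∀ a b : E n, ‖a‖ = 1 → ‖b‖ = 1 → ⟪a, b⟫ = 0 →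
      0 ≤ B a a + B b b - ⟪g, a⟫ ^ 2 - ⟪g, b⟫ ^ 2 + L) :
    ‖g‖ ^ 2 - (n : ℝ) / 2 * L ≤ ∑ i, B (e i) (e i) ∧
      -(((n : ℝ) - 1) / 2 * L * ‖g‖ ^ 2) ≤ ‖g‖ ^ 2 * (∑ i, B (e i) (e i)) - B g g := by
  classical
  have hpair : ∀ b : OrthonormalBasis (Fin n) ℝ (E n), ∀ i j, i ≠ j →
      0 ≤ (B (b i) (b i) - ⟪g, b i⟫ ^ 2) + (B (b j) (b j) - ⟪g, b j⟫ ^ 2) + L := by
    intro b i j hij
    linarith [h (b i) (b j) (b.orthonormal.1 i) (b.orthonormal.1 j) (b.orthonormal.2 hij)]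
  constructor
  · set b := EuclideanSpace.basisFun (Fin n) ℝ
    have h1 := pair_sum (s := Finset.univ) (by simp; omega) (fun i _ j _ => hpair b i j)
    rw [Finset.sum_sub_distrib, trace_eq, b.sum_sq_inner_left, Finset.card_univ,
      Fintype.card_fin] at h1
    linarith
  · rcases eq_or_ne g 0 with hg | hg
    · simp [hg]
    set ν := ‖g‖⁻¹ • g
    have hν : ‖ν‖ = 1 := by
      rw [norm_smul, norm_inv, norm_norm, inv_mul_cancel₀ (norm_ne_zero_iff.2 hg)]
    have i0 : Fin n := ⟨0, by omega⟩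
    obtain ⟨b, hb⟩ := Orthonormal.exists_orthonormalBasis_extension_of_card_eq
      (𝕜 := ℝ) (v := fun _ : Fin n => ν) (s := ({i0} : Set (Fin n)))
      (by simp [finrank_euclideanSpace]) ⟨fun i => hν, fun i j hij =>
        absurd (Subtype.ext (i.2.trans j.2.symm)) hij⟩
    have hb0 : b i0 = ν := hb i0 rfl
    have hg' : g = ‖g‖ • b i0 := by
      rw [hb0, smul_smul, mul_inv_cancel₀ (norm_ne_zero_iff.2 hg), one_smul]
    have hgi : ∀ i, i ≠ i0 → ⟪g, b i⟫ = 0 := by
      intro i hi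
      rw [hg', real_inner_smul_left, b.orthonormal.2 (Ne.symm hi), mul_zero]
    have h1 := pair_sum (s := Finset.univ.erase i0)
      (by rw [Finset.card_erase_of_mem (Finset.mem_univ _), Finset.card_univ, Fintype.card_fin]
          omega)
      (fun i _ j _ => hpair b i j)
    rw [Finset.sum_congr rfl (fun i hi => show B (b i) (b i) - ⟪g, b i⟫ ^ 2 = B (b i) (b i) by
        rw [hgi i (Finset.ne_of_mem_erase hi)]; ring),
      Finset.sum_erase_eq_sub (Finset.mem_univ _), Finset.card_erase_of_mem (Finset.mem_univ _),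
      Finset.card_univ, Fintype.card_fin, trace_eq, Nat.cast_sub (by omega), Nat.cast_one] at h1
    have hBg : B g g = ‖g‖ ^ 2 * B (b i0) (b i0) := by
      conv_lhs => rw [hg']
      simp only [map_smul, smul_apply, smul_eq_mul]
      ring
    rw [hBg, ← mul_sub]
    have := mul_le_mul_of_nonneg_left h1 (sq_nonneg ‖g‖)
    linarith

lemma kappa_alg {m p q r : ℝ} (hm : 2 ≤ m) (hp : 0 ≤ p) (hq : 0 ≤ q) (hr : 0 ≤ r)
    (hr2 : r ^ 2 = p ^ 2 + q ^ 2) :
    m / 3 * (p + q) * r ^ 3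
      ≤ m / 2 * (p ^ 2) ^ 2 + (m - 1 / 2) * p ^ 2 * q ^ 2 + (m + 1) / 2 * (q ^ 2) ^ 2 := by
  have hs : 0 ≤ r ^ 2 := sq_nonneg r
  have hpq : p + q ≤ 3 / 2 * r := by nlinarith [sq_nonneg (p - q)]
  have h3 : 0 ≤ 3 / 2 * (r ^ 2) ^ 2 - (p + q) * r ^ 3 := by
    nlinarith [mul_le_mul_of_nonneg_right hpq (pow_nonneg hr 3)]
  have hpr : p * r ≤ 5 / 8 * p ^ 2 + 2 / 5 * r ^ 2 := by nlinarith [sq_nonneg (5 * p - 4 * r)]
  have hqr : q * r ≤ 5 / 6 * q ^ 2 + 3 / 10 * r ^ 2 := by nlinarith [sq_nonneg (5 * q - 3 * r)]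
  have h4 : (p + q) * r ^ 3 ≤ (53 / 40 * p ^ 2 + 23 / 15 * q ^ 2) * r ^ 2 := by
    nlinarith [mul_le_mul_of_nonneg_right (add_le_add hpr hqr) hs]
  rw [hr2] at h4 h3
  nlinarith [mul_nonneg (sub_nonneg.2 hm) h3, sq_nonneg (42 * p ^ 2 - 73 * q ^ 2),
    mul_nonneg (sq_nonneg p) (sq_nonneg q), sq_nonneg (p ^ 2), sq_nonneg (q ^ 2)]

/-- The pointwise inequality for the calibration. -/
lemma calib_alg {m p q ε W T P : ℝ} (hm : 2 ≤ m) (hp : 0 ≤ p) (hq : 0 ≤ q) (hε : 0 < ε)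
    (hW : 0 < W) (hW2 : W ^ 2 = ε ^ 2 + p ^ 2 + q ^ 2)
    (hT : p ^ 2 - (m + 1) / 2 * (p ^ 2 - q ^ 2) ≤ T)
    (hP : -(m / 2 * (p ^ 2 - q ^ 2) * p ^ 2) ≤ p ^ 2 * T - P) :
    0 ≤ W ^ 2 * T - P - q ^ 2 * p ^ 2 + m * W ^ 2 * p ^ 2
      - (m / 3 * (p + q) - 2 * (m + 1) * ε) * W ^ 3 := by
  set s := √(p ^ 2 + q ^ 2) with hs
  have hs0 : 0 ≤ s := Real.sqrt_nonneg _
  have hs2 : s ^ 2 = p ^ 2 + q ^ 2 := Real.sq_sqrt (by positivity)
  have hsW : s ≤ W := by nlinarith [sq_nonneg ε]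
  have hWs : W ≤ s + ε := by nlinarith [mul_nonneg hs0 hε.le]
  have hA := kappa_alg hm hp hq hs0 hs2
  have h1 : m / 2 * (p ^ 2) ^ 2 + (m - 1 / 2) * p ^ 2 * q ^ 2 + (m + 1) / 2 * (q ^ 2) ^ 2
      ≤ W ^ 2 * T - P - q ^ 2 * p ^ 2 + m * W ^ 2 * p ^ 2 := by
    have e1 := mul_le_mul_of_nonneg_left hT (add_nonneg (sq_nonneg q) (sq_nonneg ε))
    have e2 : 0 ≤ (m + 1) * (ε ^ 2 * (p ^ 2 + q ^ 2)) :=
      mul_nonneg (by linarith) (by positivity)
    rw [hW2]
    linarith
  have hpq : p + q ≤ 3 / 2 * W := by nlinarith [sq_nonneg (p - q), sq_nonneg ε]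
  have hD0 : 0 ≤ m / 3 * (p + q) := mul_nonneg (by linarith) (by linarith)
  have hDW : m / 3 * (p + q) ≤ m / 2 * W := by
    calc m / 3 * (p + q) ≤ m / 3 * (3 / 2 * W) := mul_le_mul_of_nonneg_left hpq (by linarith)
      _ = m / 2 * W := by ring
  have h2 : W ^ 3 - s ^ 3 ≤ 3 * ε * W ^ 2 := by
    have e1 : W ^ 3 - s ^ 3 = (W - s) * (W ^ 2 + W * s + s ^ 2) := by ring
    have e2 : W ^ 2 + W * s + s ^ 2 ≤ 3 * W ^ 2 := by nlinarith
    rw [e1]
    calc (W - s) * (W ^ 2 + W * s + s ^ 2) ≤ ε * (3 * W ^ 2) :=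
          mul_le_mul (by linarith) e2 (by positivity) hε.le
      _ = 3 * ε * W ^ 2 := by ring
  have h3 : m / 3 * (p + q) * (W ^ 3 - s ^ 3) ≤ 3 / 2 * m * (ε * W ^ 3) := by
    calc m / 3 * (p + q) * (W ^ 3 - s ^ 3) ≤ m / 3 * (p + q) * (3 * ε * W ^ 2) :=
          mul_le_mul_of_nonneg_left h2 hD0
      _ ≤ m / 2 * W * (3 * ε * W ^ 2) := mul_le_mul_of_nonneg_right hDW (by positivity)
      _ = 3 / 2 * m * (ε * W ^ 3) := by ring
  have h4 : 0 ≤ (m / 2 + 2) * (ε * W ^ 3) := mul_nonneg (by linarith) (by positivity)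
  linarith

/-- The isoperimetric inequality for conformally flat metrics with `Sec ≤ -k²`. -/
theorem conformal_iso_kappa (hn : 3 ≤ n) {U : Set (E n)} {u w : E n → ℝ} {k : ℝ} (hk : 0 ≤ k)
    (hU : IsOpen U) (hu : ContDiffOn ℝ 2 u U)
    (hsec : ∀ x ∈ U, ∀ a b : E n, ‖a‖ = 1 → ‖b‖ = 1 → ⟪a, b⟫ = 0 →
      k ^ 2 * Real.exp (2 * u x) ≤ fderiv ℝ (fderiv ℝ u) x a a + fderiv ℝ (fderiv ℝ u) x b b
        - fderiv ℝ u x a ^ 2 - fderiv ℝ u x b ^ 2 + ‖fderiv ℝ u x‖ ^ 2)
    (hw : ContDiff ℝ 1 w) (hc : HasCompactSupport w) (hs : tsupport w ⊆ U)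
    (h0 : ∀ x, 0 ≤ w x) :
    isoConst n * (∫ x, Real.exp (n * u x) * w x ^ ((n : ℝ) / (n - 1))) ^ ((n - 1 : ℝ) / n)
        + ((n : ℝ) - 1) * k * ∫ x, Real.exp (n * u x) * w x
      ≤ 4 * ∫ x, psi u x * ‖fderiv ℝ w x‖ := by
  have hu1 : ContDiffOn ℝ 1 u U := hu.of_le one_le_two
  set m : ℝ := (n : ℝ) - 1 with hm
  have hm2 : 2 ≤ m := by
    have : (3 : ℝ) ≤ n := by exact_mod_cast hn
    linarith
  have hm1 : 0 < m := by linarith
  set K := tsupport w
  have hK : IsCompact K := hc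
  have hDu : ContDiffOn ℝ 1 (fderiv ℝ u) U := hu.fderiv_of_isOpen hU (by norm_num)
  have hgrd : ContDiffOn ℝ 1 (grd u) U := by
    rw [contDiffOn_piLp]
    intro i
    simp only [grd_apply]
    exact hDu.clm_apply contDiffOn_const
  set D : E n → ℝ := fun x => m / 3 * (‖fderiv ℝ u x‖ + k * Real.exp (u x)) with hD
  have hDc : ContinuousOn D U :=
    continuousOn_const.mul (hDu.continuousOn.norm.add
      (continuousOn_const.mul hu.continuousOn.rexp))
  have hbound : ∀ ε : ℝ, 0 < ε →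
      ∫ x, psi u x * w x * (D x - 2 * (m + 1) * ε) ≤ ∫ x, psi u x * ‖fderiv ℝ w x‖ := by
    intro ε hε
    set r : E n → ℝ := fun x => √(ε ^ 2 + ‖grd u x‖ ^ 2 + k ^ 2 * Real.exp (2 * u x)) with hr
    have hpos : ∀ x, 0 < ε ^ 2 + ‖grd u x‖ ^ 2 + k ^ 2 * Real.exp (2 * u x) := fun x => by
      positivity
    have hr0 : ∀ x, 0 < r x := fun x => Real.sqrt_pos.2 (hpos x)
    have hrC : ContDiffOn ℝ 1 r U :=
      ((contDiffOn_const.add (hgrd.norm_sq ℝ)).add
        (contDiffOn_const.mul (contDiffOn_const.mul hu1).exp)).sqrt fun x _ => (hpos x).ne'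
    refine div_bound hU hu1 hw hc hs h0 (X := fun x => (r x)⁻¹ • grd u x)
      ((hrC.inv fun x _ => (hr0 x).ne').smul hgrd) (fun x => ?_)
      (hDc.sub continuousOn_const) (fun x hx => ?_)
    · rw [norm_smul, norm_inv, Real.norm_of_nonneg (hr0 x).le, inv_mul_le_one₀ (hr0 x)]
      refine (le_of_eq (Real.sqrt_sq (norm_nonneg _)).symm).trans (Real.sqrt_le_sqrt ?_)
      have := Real.exp_pos (2 * u x)
      nlinarith [sq_nonneg k]
    · set g := grd u x with hg
      set B := fderiv ℝ (fderiv ℝ u) x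
      have hBd := ((hDu.differentiableOn one_ne_zero x hx).differentiableAt
        (hU.mem_nhds hx)).hasFDerivAt
      have hud := ((hu1.differentiableOn one_ne_zero x hx).differentiableAt
        (hU.mem_nhds hx)).hasFDerivAt
      have hgi : ∀ i, HasFDerivAt (fun y => grd u y i) (B.flip (e i)) x := by
        intro i
        simp only [grd_apply]
        have := hBd.clm_apply (hasFDerivAt_const (e i) x)
        simpa using this
      set b := k ^ 2 * Real.exp (2 * u x) with hb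
      have hsq : HasFDerivAt (fun y => ε ^ 2 + ‖grd u y‖ ^ 2 + k ^ 2 * Real.exp (2 * u y))
          ((∑ i, (2 * g i) • B.flip (e i)) + (2 * b) • fderiv ℝ u x) x := by
        refine HasFDerivAt.add ?_ ?_
        · have hfun : (fun y => ε ^ 2 + ‖grd u y‖ ^ 2)
              = fun y => ε ^ 2 + ∑ i, grd u y i ^ 2 := by
            funext y; rw [EuclideanSpace.real_norm_sq_eq]
          rw [hfun]
          refine HasFDerivAt.const_add _ (HasFDerivAt.fun_sum fun i _ => ?_)
          simpa [hg] using (hgi i).pow 2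
        · refine ((hud.const_mul 2).exp.const_mul (k ^ 2)).congr_fderiv ?_
          rw [smul_smul, smul_smul, hb]; congr 1; ring
      have hrd : HasFDerivAt (fun y => (r y)⁻¹) _ x :=
        (hasDerivAt_inv (hr0 x).ne').comp_hasFDerivAt x
          (show HasFDerivAt r _ x from hsq.sqrt (hpos x).ne')
      have hXi : ∀ i, fderiv ℝ (fun y => ((r y)⁻¹ • grd u y) i) x (e i)
          = (r x)⁻¹ * B (e i) (e i) - g i * B (e i) g / r x ^ 3 - b * g i ^ 2 / r x ^ 3 := by
        intro i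
        have h := hrd.mul (hgi i)
        rw [show fderiv ℝ (fun y => ((r y)⁻¹ • grd u y) i) x = _ from h.fderiv]
        have hBg : ∑ j, g j * B (e i) (e j) = B (e i) g := (clm_sum (B (e i)) g).symm
        simp only [add_apply, smul_apply, sum_apply,
          ContinuousLinearMap.flip_apply, smul_eq_mul, mul_assoc, ← Finset.mul_sum, hBg]
        rw [← grd_apply, ← hg]
        have := (hr0 x).ne'
        field_simp
        ring
      have hsum : ∑ i, g i * B (e i) g = B g g := (clm_sum (B.flip g) g).symm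
      simp only [hXi, Finset.sum_sub_distrib, ← Finset.mul_sum, ← Finset.sum_div, hsum,
        ← EuclideanSpace.real_norm_sq_eq]
      rw [map_smul, smul_eq_mul, show fderiv ℝ u x g = ‖g‖ ^ 2 by
        rw [← inner_grd, ← hg, real_inner_self_eq_norm_sq]]
      obtain ⟨hT, hP⟩ := curvature_boundsL hn B g (‖g‖ ^ 2 - b) fun v z hv hz hvz => by
        rw [hg, inner_grd, inner_grd, norm_grd]
        have := hsec x hx v z hv hz hvz
        linarith
      have hbq : b = (k * Real.exp (u x)) ^ 2 := by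
        rw [hb, mul_pow, ← Real.exp_nat_mul]; norm_num
      have hW2 : r x ^ 2 = ε ^ 2 + ‖g‖ ^ 2 + b := Real.sq_sqrt (hpos x).le
      have hmain := calib_alg hm2 (norm_nonneg g) (mul_nonneg hk (Real.exp_pos (u x)).le) hε
        (hr0 x) (by rw [hW2, hbq]) (T := ∑ i, B (e i) (e i)) (P := B g g)
        (by rw [hbq] at hT; rw [hm]; linarith) (by rw [hbq, ← hm] at hP; linarith)
      have hDx : D x = m / 3 * (‖g‖ + k * Real.exp (u x)) := by rw [hD, hg, norm_grd]
      rw [← sub_nonneg]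
      have hne := (hr0 x).ne'
      have hexp : (r x)⁻¹ * (∑ i, B (e i) (e i)) - B g g / r x ^ 3 - b * ‖g‖ ^ 2 / r x ^ 3
            + m * ((r x)⁻¹ * ‖g‖ ^ 2) - (D x - 2 * (m + 1) * ε)
          = (r x ^ 2 * (∑ i, B (e i) (e i)) - B g g - b * ‖g‖ ^ 2 + m * r x ^ 2 * ‖g‖ ^ 2
            - (D x - 2 * (m + 1) * ε) * r x ^ 3) / r x ^ 3 := by
        field_simp
      rw [hexp, hDx, hbq]
      exact div_nonneg hmain (pow_pos (hr0 x) 3).le
  have hw0 : ∀ x, x ∉ K → w x = 0 := fun x hx => image_eq_zero_of_notMem_tsupport hx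
  have hψ := psi_contDiffOn hu1
  have hψe : ∀ x, psi u x * Real.exp (u x) = Real.exp (n * u x) := fun x => by
    rw [psi, ← Real.exp_add]; ring_nf
  have hi0 : Integrable fun x => psi u x * w x :=
    glue_integrable hU hK hs (hψ.continuousOn.mul hw.continuous.continuousOn)
      (fun x hx => by simp [hw0 x hx])
  have hiD : Integrable fun x => psi u x * w x * D x :=
    glue_integrable hU hK hs ((hψ.continuousOn.mul hw.continuous.continuousOn).mul hDc)
      (fun x hx => by simp [hw0 x hx])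
  have hi1 : Integrable fun x => psi u x * w x * (m * ‖fderiv ℝ u x‖) :=
    glue_integrable hU hK hs ((hψ.continuousOn.mul hw.continuous.continuousOn).mul
      (continuousOn_const.mul hDu.continuousOn.norm)) (fun x hx => by simp [hw0 x hx])
  have hi2 : Integrable fun x => Real.exp (n * u x) * w x :=
    glue_integrable hU hK hs ((continuousOn_const.mul hu.continuousOn).rexp.mul
      hw.continuous.continuousOn) (fun x hx => by simp [hw0 x hx])
  set R := ∫ x, psi u x * ‖fderiv ℝ w x‖ with hR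
  have hR0 : 0 ≤ R := integral_nonneg fun x => mul_nonneg (Real.exp_pos _).le (norm_nonneg _)
  have hlim : ∫ x, psi u x * w x * D x ≤ R := by
    refine le_of_forall_pos_le_add fun η hη => ?_
    set M := ∫ x, psi u x * w x
    have hM : 0 ≤ M := integral_nonneg fun x => mul_nonneg (Real.exp_pos _).le (h0 x)
    set c := 2 * (m + 1)
    have hc0 : 0 < c := by positivity
    set δ := η / (c * M + 1) with hδdef
    have hδ : 0 < δ := by positivity
    have h := hbound _ hδ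
    rw [show (fun x => psi u x * w x * (D x - c * δ))
      = fun x => psi u x * w x * D x - c * δ * (psi u x * w x) from funext fun x => by ring,
      integral_sub hiD (hi0.const_mul _), integral_const_mul] at h
    have : c * δ * M ≤ η := by
      rw [hδdef, mul_div_assoc', div_mul_eq_mul_div, div_le_iff₀ (by positivity)]
      nlinarith
    linarith
  set A := ∫ x, psi u x * w x * (m * ‖fderiv ℝ u x‖) with hA
  set V := ∫ x, Real.exp (n * u x) * w x with hV
  have hA0 : 0 ≤ A := integral_nonneg fun x => mul_nonneg (mul_nonneg (Real.exp_pos _).le (h0 x))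
    (mul_nonneg hm1.le (norm_nonneg _))
  have hV0 : 0 ≤ V := integral_nonneg fun x => mul_nonneg (Real.exp_pos _).le (h0 x)
  have hAV : A + m * k * V ≤ 3 * R := by
    rw [show (fun x => psi u x * w x * D x) = fun x => 1 / 3 *
        (psi u x * w x * (m * ‖fderiv ℝ u x‖) + m * k * (Real.exp (n * u x) * w x)) from
        funext fun x => by rw [← hψe, hD]; ring,
      integral_const_mul, integral_add hi1 (hi2.const_mul _), integral_const_mul] at hlim
    linarith
  have hCR : A ≤ A / R * R := by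
    rcases eq_or_lt_of_le hR0 with h | h
    · have : A ≤ 0 := by nlinarith [mul_nonneg (mul_nonneg hm1.le hk) hV0]
      rw [← h, mul_zero]; exact this
    · rw [div_mul_cancel₀ _ h.ne']
  have h3 := iso_of_bound hU hu1 hw hc hs h0 (by omega) (C := A / R) hCR
  have hAR : A / R * R ≤ A := by
    rcases eq_or_lt_of_le hR0 with h | h
    · rw [← h, mul_zero]; exact hA0
    · rw [div_mul_cancel₀ _ h.ne']
  rw [add_mul, one_mul, ← hR] at h3
  linarith

/-- The comparison with the model profile for test functions with values in `[0, 1]`. -/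
theorem conformal_profile (hn : 3 ≤ n) {U : Set (E n)} {u w : E n → ℝ} {k : ℝ} (hk : 0 ≤ k)
    (hU : IsOpen U) (hu : ContDiffOn ℝ 2 u U)
    (hsec : ∀ x ∈ U, ∀ a b : E n, ‖a‖ = 1 → ‖b‖ = 1 → ⟪a, b⟫ = 0 →
      k ^ 2 * Real.exp (2 * u x) ≤ fderiv ℝ (fderiv ℝ u) x a a + fderiv ℝ (fderiv ℝ u) x b b
        - fderiv ℝ u x a ^ 2 - fderiv ℝ u x b ^ 2 + ‖fderiv ℝ u x‖ ^ 2)
    (hw : ContDiff ℝ 1 w) (hc : HasCompactSupport w) (hs : tsupport w ⊆ U)
    (h0 : ∀ x, 0 ≤ w x) (h1 : ∀ x, w x ≤ 1) {r : ℝ} (hr : 0 ≤ r)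
    (hV : (∫ x, Real.exp (n * u x) * w x ^ ((n : ℝ) / (n - 1)))
      = n * volume.real (Metric.closedBall (0 : E n) 1) * ∫ t in (0 : ℝ)..r, snb k t ^ (n - 1)) :
    n * volume.real (Metric.closedBall (0 : E n) 1) * snb k r ^ (n - 1)
      ≤ 4 * ∫ x, psi u x * ‖fderiv ℝ w x‖ := by
  have h := conformal_iso_kappa hn hk hU hu hsec hw hc hs h0
  have hm : (0 : ℝ) < (n : ℝ) - 1 := by
    have : (3 : ℝ) ≤ n := by exact_mod_cast hn
    linarith
  have hp : 1 ≤ (n : ℝ) / (n - 1) := by rw [one_le_div hm]; linarith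
  have hmono : ∫ x, Real.exp (n * u x) * w x ^ ((n : ℝ) / (n - 1))
      ≤ ∫ x, Real.exp (n * u x) * w x := by
    refine integral_mono_of_nonneg (ae_of_all _ fun x =>
        mul_nonneg (Real.exp_pos _).le (Real.rpow_nonneg (h0 x) _))
      (glue_integrable hU (show IsCompact (tsupport w) from hc) hs
        ((continuousOn_const.mul hu.continuousOn).rexp.mul hw.continuous.continuousOn)
        (fun x hx => by simp [image_eq_zero_of_notMem_tsupport hx]))
      (ae_of_all _ fun x => mul_le_mul_of_nonneg_left ?_ (Real.exp_pos _).le)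
    calc w x ^ ((n : ℝ) / (n - 1)) ≤ w x ^ (1 : ℝ) :=
          Real.rpow_le_rpow_of_exponent_ge' (h0 x) (h1 x) zero_le_one hp
      _ = w x := Real.rpow_one _
  have hpr := profile_le (n := n) (by omega) hk hr measureReal_nonneg hV
  simp only [isoConst, kap] at h
  nlinarith [mul_le_mul_of_nonneg_left hmono (mul_nonneg hm.le hk)]

end Vale.Agent.P219
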