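import Vale.Agent.P219.Sobolev

/-!
# P219: the one-sided isoperimetric inequality on an orthant

For a weight that increases along the directions of an orthant `Q`, apply Brunn–Minkowski to the
double superlevel sets `{x ∈ Q | λ < Ψ x ∧ t < w x}` and the part of the ball in the orthant: the
one-sided thickenings stay inside `{λ < Ψ} ∩ Q`, so only `∫_Q Ψ ‖Dw‖` is needed.
-/

namespace Vale.Agent.P219

open MeasureTheory Set Filter Topology Metric
open scoped Pointwise ENNReal RealInnerProductSpace

variable {n : ℕ}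

/-- The open orthant of an orthonormal basis. -/
def orth (v : OrthonormalBasis (Fin n) ℝ (E n)) : Set (E n) := {x | ∀ i, 0 < ⟪v i, x⟫}

/-- The part of the unit ball in the closed orthant. -/
def pball (v : OrthonormalBasis (Fin n) ℝ (E n)) : Set (E n) :=
  closedBall 0 1 ∩ {x | ∀ i, 0 ≤ ⟪v i, x⟫}

variable (v : OrthonormalBasis (Fin n) ℝ (E n))

lemma isCompact_pball : IsCompact (pball v) := by
  refine (isCompact_closedBall _ _).inter_right ?_
  rw [ofPred_forall]
  exact isClosed_iInter fun i => isClosed_le continuous_const (continuous_const.inner continuous_id)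

lemma zero_mem_pball : (0 : E n) ∈ pball v := ⟨by simp, fun i => by simp⟩

lemma measurableSet_orth : MeasurableSet (orth v) := by
  have : orth v = ⋂ i, {x | 0 < ⟪v i, x⟫} := by ext x; simp [orth]
  rw [this]
  exact MeasurableSet.iInter fun i =>
    (isOpen_lt continuous_const (continuous_const.inner continuous_id)).measurableSet

lemma norm_le_add {x b : E n} (hx : x ∈ orth v) (hb : ∀ i, 0 ≤ ⟪v i, b⟫) : ‖x‖ ≤ ‖x + b‖ := by
  have h : 0 ≤ ⟪x, b⟫ := by
    rw [← v.sum_inner_mul_inner x b]
    refine Finset.sum_nonneg fun i _ => mul_nonneg ?_ (hb i)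
    rw [real_inner_comm]; exact (hx i).le
  refine le_of_sq_le_sq ?_ (norm_nonneg _)
  rw [norm_add_sq_real]
  nlinarith [sq_nonneg ‖b‖]

lemma orth_add {x b : E n} (hx : x ∈ orth v) (hb : ∀ i, 0 ≤ ⟪v i, b⟫) : x + b ∈ orth v :=
  fun i => by rw [inner_add_right]; linarith [hx i, hb i]

/-- All orthants cut the same volume from the ball. -/
lemma volume_pball_eq (w : OrthonormalBasis (Fin n) ℝ (E n)) :
    volume (pball v) = volume (pball w) := by
  set L : E n ≃ₗᵢ[ℝ] E n := v.repr.trans w.repr.symm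
  have hL : L ⁻¹' pball w = pball v := by
    ext x
    have hi : ∀ i, ⟪w i, L x⟫ = ⟪v i, x⟫ := fun i => by
      rw [← w.repr_apply_apply, ← v.repr_apply_apply]
      simp [L]
    simp only [mem_preimage, pball, mem_inter_iff, mem_closedBall_zero_iff, mem_ofPred_eq,
      LinearIsometryEquiv.norm_map, hi]
  rw [← hL, L.measurePreserving.measure_preimage
    (isCompact_pball w).measurableSet.nullMeasurableSet]

lemma pball_volume : volume.real (closedBall (0 : E n) 1) ≤ 2 ^ n * volume.real (pball v) := by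
  classical
  set s : (Fin n → Bool) → Fin n → ℝ := fun σ i => if σ i then 1 else -1
  have hon : ∀ σ, Orthonormal ℝ fun i => s σ i • v i := fun σ => by
    refine ⟨fun i => ?_, fun i j hij => ?_⟩
    · rw [norm_smul, v.orthonormal.1 i, mul_one]
      simp only [s]; split_ifs <;> simp
    · simp only [inner_smul_left, inner_smul_right, v.orthonormal.2 hij, mul_zero]
  set vs : (Fin n → Bool) → OrthonormalBasis (Fin n) ℝ (E n) := fun σ =>
    OrthonormalBasis.mk (hon σ) (le_of_eq ((hon σ).linearIndependent.span_eq_top_of_card_eq_finrank'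
      (by simp)).symm)
  have hcov : closedBall (0 : E n) 1 ⊆ ⋃ σ, pball (vs σ) := by
    intro x hx
    refine mem_iUnion.2 ⟨fun i => decide (0 ≤ ⟪v i, x⟫), hx, fun i => ?_⟩
    simp only [vs, OrthonormalBasis.coe_mk, inner_smul_left, s, decide_eq_true_eq, conj_trivial]
    split_ifs with h
    · simpa using h
    · linarith
  have hfin : ∀ σ, volume (pball (vs σ)) ≠ ∞ := fun σ => (isCompact_pball _).measure_lt_top.ne
  have h := (measure_mono hcov).trans (measure_iUnion_fintype_le volume fun σ => pball (vs σ))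
  have h' := ENNReal.toReal_mono (ENNReal.sum_ne_top.2 fun σ _ => hfin σ) h
  rw [ENNReal.toReal_sum fun σ _ => hfin σ] at h'
  refine h'.trans (le_of_eq ?_)
  simp only [fun σ => (volume_pball_eq v (vs σ)).symm, Finset.sum_const, Finset.card_univ,
    Fintype.card_fun, Fintype.card_fin, Fintype.card_bool, nsmul_eq_mul]
  push_cast
  rfl

/-- The one-sided sup-convolution. -/
noncomputable def sup1 (w : E n → ℝ) (ε : ℝ) (x : E n) : ℝ :=
  sSup ((fun y => w (x - ε • y)) '' pball v)

lemma continuous_sup1 {w : E n → ℝ} (hw : Continuous w) (ε : ℝ) : Continuous (sup1 v w ε) :=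
  (isCompact_pball v).continuous_sSup (f := fun x y => w (x - ε • y)) (by fun_prop)

lemma le_sup1 {w : E n → ℝ} (hw : Continuous w) (ε : ℝ) (x : E n) {y : E n} (hy : y ∈ pball v) :
    w (x - ε • y) ≤ sup1 v w ε x :=
  le_csSup ((isCompact_pball v).image (by fun_prop)).bddAbove (mem_image_of_mem _ hy)

lemma exists_sup1 {w : E n → ℝ} (hw : Continuous w) (ε : ℝ) (x : E n) :
    ∃ y ∈ pball v, sup1 v w ε x = w (x - ε • y) := by
  obtain ⟨y, hy, e⟩ := ((isCompact_pball v).image
    (f := fun y => w (x - ε • y)) (by fun_prop)).sSup_mem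
    (Set.Nonempty.image _ ⟨0, zero_mem_pball v⟩)
  exact ⟨y, hy, e.symm⟩

/-- Two layer cakes at once. -/
lemma double_layer {α : Type*} [MeasurableSpace α] (μ : Measure α) [SFinite μ] {h : α → ℝ≥0∞}
    {F G : α → ℝ} (hh : Measurable h) (hF : Measurable F) (hG : Measurable G)
    (hF0 : ∀ x, 0 ≤ F x) (hG0 : ∀ x, 0 ≤ G x) :
    ∫⁻ x, h x * (ENNReal.ofReal (F x) * ENNReal.ofReal (G x)) ∂μ
      = ∫⁻ l in Ioi (0 : ℝ), ∫⁻ t in Ioi (0 : ℝ),
          (μ.withDensity h) {x | l < F x ∧ t < G x} := by
  set ν := μ.withDensity h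
  set ν' := ν.withDensity fun x => ENNReal.ofReal (G x)
  have e1 : ∫⁻ x, h x * (ENNReal.ofReal (F x) * ENNReal.ofReal (G x)) ∂μ
      = ∫⁻ x, ENNReal.ofReal (F x) ∂ν' := by
    rw [lintegral_withDensity_eq_lintegral_mul _ hG.ennreal_ofReal hF.ennreal_ofReal,
      lintegral_withDensity_eq_lintegral_mul _ hh (hG.ennreal_ofReal.mul hF.ennreal_ofReal)]
    exact lintegral_congr fun x => by simp only [Pi.mul_apply]; ring
  rw [e1, lintegral_eq_lintegral_meas_lt _ (ae_of_all _ hF0) hF.aemeasurable]
  refine lintegral_congr fun l => ?_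
  rw [withDensity_apply _ (measurableSet_lt measurable_const hF),
    lintegral_eq_lintegral_meas_lt _ (ae_of_all _ hG0) hG.aemeasurable]
  refine lintegral_congr fun t => ?_
  rw [Measure.restrict_apply (measurableSet_lt measurable_const hG), inter_comm]
  rfl

/-- The weighted isoperimetric inequality on one orthant, with half the Euclidean constant. -/
theorem orth_bound (hn : 2 ≤ n) {Ψ w : E n → ℝ} (hΨ : Measurable Ψ) (hΨ0 : ∀ x, 0 ≤ Ψ x)
    (hΨb : ∀ K, IsCompact K → ∃ M, ∀ x ∈ K, Ψ x ≤ M)
    (hup : ∀ x ∈ orth v, ∀ b, (∀ i, 0 ≤ ⟪v i, b⟫) → Ψ x ≤ Ψ (x + b))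
    (hw : ContDiff ℝ 1 w) (hc : HasCompactSupport w) (h0 : ∀ x, 0 ≤ w x) :
    ENNReal.ofReal (isoConst n / 2)
        * (∫⁻ x in orth v, ENNReal.ofReal ((Ψ x * w x) ^ ((n : ℝ) / (n - 1))))
            ^ ((n - 1 : ℝ) / n)
      ≤ ∫⁻ x in orth v, ENNReal.ofReal (Ψ x * ‖fderiv ℝ w x‖) := by
  have hn0 : 0 < n := by omega
  have hn1 : (0 : ℝ) < (n : ℝ) - 1 := by
    have : (2 : ℝ) ≤ n := by exact_mod_cast hn
    linarith
  have hnp : (0 : ℝ) < n := by positivity
  have hwc := hw.continuous
  set p : ℝ := (n : ℝ) / (n - 1) with hp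
  set a : ℝ := (n - 1 : ℝ) / n with ha
  have hp0 : 0 < p := div_pos hnp hn1
  have ha0 : 0 < a := div_pos hn1 hnp
  have hp1 : 0 < p - 1 := by rw [hp, sub_pos, one_lt_div hn1]; linarith
  set Q := orth v
  have hQ := measurableSet_orth v
  set μ := (volume : Measure (E n)).restrict Q
  set K := cthickening 1 (tsupport w)
  have hK : IsCompact K := IsCompact.cthickening hc
  obtain ⟨M, hM⟩ := hΨb K hK
  set g : E n → ℝ≥0∞ := fun x => ENNReal.ofReal ((Ψ x * w x) ^ (p - 1))
  have hgm : Measurable g :=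
    ENNReal.measurable_ofReal.comp ((hΨ.mul hwc.measurable).pow_const _)
  have hA : ∀ l t : ℝ, MeasurableSet {x | l < Ψ x ∧ t < w x} := fun l t =>
    (measurableSet_lt measurable_const hΨ).inter (isOpen_lt continuous_const hwc).measurableSet
  set Φ := ∫⁻ l in Ioi (0 : ℝ), ∫⁻ t in Ioi (0 : ℝ), μ {x | l < Ψ x ∧ t < w x} ^ a with hΦ
  set I := ∫⁻ x, ENNReal.ofReal ((Ψ x * w x) ^ p) ∂μ
  -- Hölder
  have hItop : I ≠ ∞ := by
    have hb : ∀ x, ENNReal.ofReal ((Ψ x * w x) ^ p)
        ≤ K.indicator (fun x => ENNReal.ofReal ((M * w x) ^ p)) x := fun x => by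
      by_cases hx : x ∈ K
      · rw [indicator_of_mem hx]
        exact ENNReal.ofReal_le_ofReal (Real.rpow_le_rpow (mul_nonneg (hΨ0 x) (h0 x))
          (mul_le_mul_of_nonneg_right (hM x hx) (h0 x)) hp0.le)
      · rw [indicator_of_notMem hx, image_eq_zero_of_notMem_tsupport
          (fun h => hx (self_subset_cthickening _ h)), mul_zero, Real.zero_rpow hp0.ne',
          ENNReal.ofReal_zero]
    refine ne_top_of_le_ne_top ?_ ((lintegral_mono hb).trans (setLIntegral_le_lintegral _ _))
    rw [lintegral_indicator hK.measurableSet]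
    exact (((continuous_const.mul hwc).rpow_const fun _ => Or.inr hp0.le).continuousOn.integrableOn_compact
      hK).lintegral_lt_top.ne
  have hIle : I ≤ Φ * I ^ (n : ℝ)⁻¹ := by
    have e1 : I = ∫⁻ x, g x * (ENNReal.ofReal (Ψ x) * ENNReal.ofReal (w x)) ∂μ := by
      refine lintegral_congr fun x => ?_
      have hq := mul_nonneg (hΨ0 x) (h0 x)
      rw [← ENNReal.ofReal_mul (hΨ0 x), ← ENNReal.ofReal_mul (Real.rpow_nonneg hq _)]
      congr 1
      rcases hq.eq_or_lt with h | h
      · rw [← h, mul_zero, Real.zero_rpow hp0.ne']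
      · rw [← Real.rpow_add_one h.ne', sub_add_cancel]
    refine e1.le.trans ?_
    rw [double_layer μ hgm hΨ hwc.measurable hΨ0 h0, hΦ,
      ← lintegral_mul_const' _ _ (ENNReal.rpow_ne_top_of_nonneg (by positivity) hItop)]
    refine lintegral_mono fun l => ?_
    rw [← lintegral_mul_const' _ _ (ENNReal.rpow_ne_top_of_nonneg (by positivity) hItop)]
    refine lintegral_mono fun t => ?_
    have hpq : Real.HolderConjugate (n : ℝ) p := by
      rw [Real.holderConjugate_iff]
      refine ⟨by linarith, ?_⟩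
      rw [hp, inv_div]; field_simp; ring
    have hH := ENNReal.lintegral_mul_le_Lp_mul_Lq μ hpq hgm.aemeasurable
      ((measurable_one.indicator (hA l t)).aemeasurable (μ := μ))
    rw [withDensity_apply _ (hA l t), ← lintegral_indicator (hA l t)]
    refine le_trans (le_of_eq ?_) (hH.trans ?_)
    · refine lintegral_congr fun x => ?_
      by_cases hx : x ∈ {x | l < Ψ x ∧ t < w x} <;> simp [hx]
    · rw [mul_comm, show (1 : ℝ) / (n : ℝ) = (n : ℝ)⁻¹ from one_div _]
      refine mul_le_mul' (le_of_eq ?_) (le_of_eq ?_)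
      · have e2 : (fun x => ({x | l < Ψ x ∧ t < w x}.indicator (1 : E n → ℝ≥0∞) x) ^ p)
            = {x | l < Ψ x ∧ t < w x}.indicator 1 := by
          funext x
          by_cases hx : x ∈ {x | l < Ψ x ∧ t < w x} <;> simp [hx, ENNReal.zero_rpow_of_pos hp0]
        rw [e2, lintegral_indicator_one (hA l t)]
        congr 1
        rw [hp, ha, one_div_div]
      · congr 1
        refine lintegral_congr fun x => ?_
        have hq := mul_nonneg (hΨ0 x) (h0 x)
        simp only [g]
        rw [ENNReal.ofReal_rpow_of_nonneg (Real.rpow_nonneg hq _) hnp.le, ← Real.rpow_mul hq,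
          show (p - 1) * n = p by rw [hp]; field_simp; ring]
  have hIΦ : I ^ a ≤ Φ := by
    rcases eq_or_ne I 0 with h | h
    · rw [h, ENNReal.zero_rpow_of_pos ha0]; exact zero_le
    · have e : I ^ a = I / I ^ (n : ℝ)⁻¹ := by
        rw [show a = 1 - (n : ℝ)⁻¹ by rw [ha]; field_simp, ENNReal.rpow_sub _ _ h hItop,
          ENNReal.rpow_one]
      rw [e]
      exact ENNReal.div_le_of_le_mul hIle
  refine le_trans (mul_le_mul' le_rfl hIΦ) ?_
  -- Brunn–Minkowski
  set G := ∫⁻ x, ENNReal.ofReal (Ψ x * ‖fderiv ℝ w x‖) ∂μ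
  set C := ∫⁻ x, K.indicator (fun _ => ENNReal.ofReal M) x ∂μ
  have hCtop : C ≠ ∞ := by
    refine ne_top_of_le_ne_top ?_ (setLIntegral_le_lintegral _ _)
    rw [lintegral_indicator_const hK.measurableSet]
    exact ENNReal.mul_ne_top ENNReal.ofReal_ne_top hK.measure_lt_top.ne
  have hη : ∀ η : ℝ, 0 < η → ENNReal.ofReal (isoConst n / 2) * Φ ≤ G + ENNReal.ofReal η * C := by
    intro η hη
    obtain ⟨δ, hδ, hlip⟩ := Metric.uniformContinuous_iff.1
      ((hc.fderiv ℝ).uniformContinuous_of_continuous (hw.continuous_fderiv one_ne_zero)) η hη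
    set ε : ℝ := min (δ / 2) 1
    have hε : 0 < ε := lt_min (by linarith) one_pos
    have hε1 : ε ≤ 1 := min_le_right _ _
    set W := sup1 v w ε
    have hWc : Continuous W := continuous_sup1 v hwc ε
    have hwW : ∀ x, w x ≤ W x := fun x => by
      simpa using le_sup1 v hwc ε x (zero_mem_pball v)
    have hW0 : ∀ x, 0 ≤ W x := fun x => (h0 x).trans (hwW x)
    have hout : ∀ x, x ∉ K → W x = 0 := by
      intro x hx
      obtain ⟨y, hy, e⟩ := exists_sup1 v hwc ε x
      have hy1 : ‖y‖ ≤ 1 := by simpa using hy.1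
      rw [show W x = _ from e]
      by_contra hne
      refine hx (mem_cthickening_of_dist_le x _ 1 _ (subset_tsupport w hne) ?_)
      rw [dist_self_sub_right, norm_smul, Real.norm_eq_abs, abs_of_pos hε]
      exact mul_le_one₀ hε1 (norm_nonneg _) hy1
    have hgrow : ∀ x, Ψ x * W x ≤ Ψ x * w x + ε * (Ψ x * ‖fderiv ℝ w x‖
        + η * K.indicator (fun _ => M) x) := by
      intro x
      by_cases hx : x ∈ K
      · rw [indicator_of_mem hx]
        obtain ⟨y, hy, e⟩ := exists_sup1 v hwc ε x
        have hy1 : ‖y‖ ≤ 1 := by simpa using hy.1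
        have hyn : ‖ε • y‖ ≤ ε := by
          rw [norm_smul, Real.norm_eq_abs, abs_of_pos hε]
          exact mul_le_of_le_one_right hε.le hy1
        have hb : ∀ z ∈ closedBall x ε, ‖fderiv ℝ w z‖ ≤ ‖fderiv ℝ w x‖ + η := fun z hz => by
          have hzx : dist z x < δ :=
            lt_of_le_of_lt (mem_closedBall.1 hz) (lt_of_le_of_lt (min_le_left _ _) (by linarith))
          have h := hlip hzx
          rw [dist_eq_norm] at h
          linarith [norm_sub_norm_le (fderiv ℝ w z) (fderiv ℝ w x)]
        have h := (convex_closedBall x ε).norm_image_sub_le_of_norm_fderiv_le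
          (fun z _ => hw.differentiable one_ne_zero z) hb (mem_closedBall_self hε.le)
          (show x - ε • y ∈ closedBall x ε by
            rw [mem_closedBall, dist_self_sub_left]; exact hyn)
        rw [sub_sub_cancel_left, norm_neg] at h
        have h2 : W x - w x ≤ ε * (‖fderiv ℝ w x‖ + η) := by
          rw [show W x = _ from e]
          refine (le_abs_self _).trans (h.trans ?_)
          rw [mul_comm]
          exact mul_le_mul_of_nonneg_right hyn (by positivity)
        nlinarith [mul_le_mul_of_nonneg_left h2 (hΨ0 x), hM x hx, hΨ0 x,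
          mul_nonneg (mul_nonneg hε.le hη.le) (sub_nonneg.2 (hM x hx))]
      · have := hΨ0 x
        rw [hout x hx, indicator_of_notMem hx, mul_zero, mul_zero, add_zero]
        have := mul_nonneg (mul_nonneg hε.le (hΨ0 x)) (norm_nonneg (fderiv ℝ w x))
        nlinarith [mul_nonneg (hΨ0 x) (h0 x)]
    set J := ∫⁻ x, 1 * (ENNReal.ofReal (Ψ x) * ENNReal.ofReal (w x)) ∂μ
    have hJtop : J ≠ ∞ := by
      obtain ⟨B, hB⟩ := hwc.bounded_above_of_compact_support hc
      have hb : ∀ x, (1 : ℝ≥0∞) * (ENNReal.ofReal (Ψ x) * ENNReal.ofReal (w x))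
          ≤ K.indicator (fun _ => ENNReal.ofReal M * ENNReal.ofReal B) x := fun x => by
        by_cases hx : x ∈ K
        · rw [indicator_of_mem hx, one_mul]
          exact mul_le_mul' (ENNReal.ofReal_le_ofReal (hM x hx))
            (ENNReal.ofReal_le_ofReal ((Real.le_norm_self _).trans (hB x)))
        · rw [indicator_of_notMem hx, image_eq_zero_of_notMem_tsupport
            (fun h => hx (self_subset_cthickening _ h))]
          simp
      refine ne_top_of_le_ne_top ?_ ((lintegral_mono hb).trans (setLIntegral_le_lintegral _ _))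
      rw [lintegral_indicator_const hK.measurableSet]
      exact ENNReal.mul_ne_top (ENNReal.mul_ne_top ENNReal.ofReal_ne_top ENNReal.ofReal_ne_top)
        hK.measure_lt_top.ne
    set c : ℝ := isoConst n / 2 * ε
    have hc0 : 0 < c := mul_pos (half_pos (isoConst_pos hn0)) hε
    have key : J + ENNReal.ofReal c * Φ
        ≤ ∫⁻ x, 1 * (ENNReal.ofReal (Ψ x) * ENNReal.ofReal (W x)) ∂μ := by
      simp only [J]
      rw [double_layer μ measurable_const hΨ hwc.measurable hΨ0 h0,
        double_layer μ measurable_const hΨ hWc.measurable hΨ0 hW0, hΦ,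
        ← lintegral_const_mul' _ _ ENNReal.ofReal_ne_top]
      refine le_trans (le_lintegral_add _ _) (setLIntegral_mono' measurableSet_Ioi fun l hl => ?_)
      rw [← lintegral_const_mul' _ _ ENNReal.ofReal_ne_top]
      refine le_trans (le_lintegral_add _ _) (setLIntegral_mono' measurableSet_Ioi fun t ht => ?_)
      have hB := hA l t
      have hW' : MeasurableSet {x | l < Ψ x ∧ t < W x} :=
        (measurableSet_lt measurable_const hΨ).inter (isOpen_lt continuous_const hWc).measurableSet
      rw [show (fun _ : E n => (1 : ℝ≥0∞)) = 1 from rfl, withDensity_one, Measure.restrict_apply hB,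
        Measure.restrict_apply hW']
      set A := {x | l < Ψ x ∧ t < w x} ∩ Q
      set C' := {x | l < Ψ x ∧ t < W x} ∩ Q
      have hC'K : C' ⊆ K := fun x hx => by
        by_contra hxK
        have h' := hx.1.2
        rw [hout x hxK] at h'
        exact absurd h' (not_lt.2 (le_of_lt ht))
      have hC'top : volume C' ≠ ∞ := ne_top_of_le_ne_top hK.measure_lt_top.ne (measure_mono hC'K)
      have hAC : A ⊆ C' := fun x hx => ⟨⟨hx.1.1, lt_of_lt_of_le hx.1.2 (hwW x)⟩, hx.2⟩
      have hAtop : volume A ≠ ∞ := ne_top_of_le_ne_top hC'top (measure_mono hAC)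
      set s := volume.real A
      rw [← ENNReal.ofReal_toReal hAtop, ← ENNReal.ofReal_toReal hC'top,
        ENNReal.ofReal_rpow_of_nonneg ENNReal.toReal_nonneg ha0.le,
        ← ENNReal.ofReal_mul hc0.le, ← ENNReal.ofReal_add ENNReal.toReal_nonneg (by positivity)]
      refine ENNReal.ofReal_le_ofReal ?_
      change s + c * s ^ a ≤ volume.real C'
      rcases (measureReal_nonneg : 0 ≤ s).eq_or_lt with hs | hs
      · rw [show s = 0 from hs.symm, Real.zero_rpow ha0.ne', mul_zero, add_zero]
        exact measureReal_nonneg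
      set α := s ^ ((n : ℝ)⁻¹)
      have hα : 0 < α := Real.rpow_pos_of_pos hs _
      have hαn : α ^ n = s := Real.rpow_inv_natCast_pow hs.le hn0.ne'
      have hκ := kap_pos n
      have h := Vale.Agent.P237.BM.bm_pow (n := n) (a := 1 / 2) (b := 1 / 2)
        (A := (2 : ℝ) • A) (B := (2 * ε) • pball v) (C := C')
        (α := 2 * α) (β := 2 * ε * (kap n / 2)) (by norm_num) (by norm_num) (by norm_num)
        ((hB.inter hQ).const_smul₀ _) ((isCompact_pball v).measurableSet.const_smul₀ _)
        (hW'.inter hQ) hC'top ?_ (by positivity) (by positivity) ?_ ?_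
      · rw [show 1 / 2 * (2 * α) + 1 / 2 * (2 * ε * (kap n / 2)) = α + ε * (kap n / 2) by ring]
          at h
        refine le_trans (le_of_eq ?_) ((pow_add_ge hα.le (by positivity) n).trans h)
        have hexp : α ^ (n - 1) = s ^ a := by
          rw [← Real.rpow_natCast, ← Real.rpow_mul hs.le, Nat.cast_sub hn0, Nat.cast_one,
            inv_mul_eq_div]
        rw [hαn, hexp]; simp only [c, isoConst]; ring
      · intro x hx y hy
        obtain ⟨q, hq, rfl⟩ := mem_smul_set.1 hx
        obtain ⟨b, hb, rfl⟩ := mem_smul_set.1 hy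
        rw [smul_smul, smul_smul, show (1 / 2 * 2 : ℝ) = 1 by norm_num, one_smul,
          show (1 / 2 * (2 * ε)) = ε by ring]
        have hεb : ∀ i, 0 ≤ ⟪v i, ε • b⟫ := fun i => by
          rw [inner_smul_right]; exact mul_nonneg hε.le (hb.2 i)
        refine ⟨⟨lt_of_lt_of_le hq.1.1 (hup q hq.2 _ hεb), lt_of_lt_of_le hq.1.2 ?_⟩,
          orth_add v hq.2 hεb⟩
        simpa using le_sup1 v hwc ε (q + ε • b) hb
      · rw [Vale.Agent.P237.BM.vol_smul (by norm_num), mul_pow, hαn]
        rfl
      · rw [Vale.Agent.P237.BM.vol_smul (by positivity), mul_pow]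
        refine mul_le_mul_of_nonneg_left ?_ (by positivity)
        rw [div_pow, kap_pow hn0, div_le_iff₀ (by positivity), mul_comm]
        exact pball_volume v
    have hup' : ∫⁻ x, 1 * (ENNReal.ofReal (Ψ x) * ENNReal.ofReal (W x)) ∂μ
        ≤ J + ENNReal.ofReal ε * (G + ENNReal.ofReal η * C) := by
      simp only [J, G, C]
      rw [← lintegral_const_mul' _ _ ENNReal.ofReal_ne_top, ← lintegral_add_left' (by fun_prop),
        ← lintegral_const_mul' _ _ ENNReal.ofReal_ne_top, ← lintegral_add_left' (by fun_prop)]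
      refine lintegral_mono fun x => ?_
      have hi : 0 ≤ η * K.indicator (fun _ => M) x := by
        by_cases hx : x ∈ K
        · rw [indicator_of_mem hx]; exact mul_nonneg hη.le ((hΨ0 x).trans (hM x hx))
        · simp [indicator_of_notMem hx]
      have e2 : K.indicator (fun _ => ENNReal.ofReal M) x
          = ENNReal.ofReal (K.indicator (fun _ => M) x) := by
        by_cases hx : x ∈ K <;> simp [hx]
      have hq : 0 ≤ Ψ x * ‖fderiv ℝ w x‖ := mul_nonneg (hΨ0 x) (norm_nonneg _)
      rw [e2, one_mul, one_mul, ← ENNReal.ofReal_mul (hΨ0 x), ← ENNReal.ofReal_mul (hΨ0 x),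
        ← ENNReal.ofReal_mul hη.le, ← ENNReal.ofReal_add hq hi, ← ENNReal.ofReal_mul hε.le,
        ← ENNReal.ofReal_add (mul_nonneg (hΨ0 x) (h0 x)) (by positivity)]
      exact ENNReal.ofReal_le_ofReal (hgrow x)
    have h := (ENNReal.add_le_add_iff_left hJtop).1 (key.trans hup')
    rw [show c = ε * (isoConst n / 2) from mul_comm _ _, ENNReal.ofReal_mul hε.le, mul_assoc] at h
    exact (ENNReal.mul_le_mul_iff_right (ENNReal.ofReal_pos.2 hε).ne' ENNReal.ofReal_ne_top).1 h
  have hlim : Tendsto (fun η => G + ENNReal.ofReal η * C) (𝓝[>] 0) (𝓝 G) := by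
    have h := (ENNReal.Tendsto.mul_const (b := C)
      ((ENNReal.continuous_ofReal.tendsto 0).mono_left
        (nhdsWithin_le_nhds (s := Ioi (0 : ℝ)))) (Or.inr hCtop)).const_add G
    simpa using h
  exact ge_of_tendsto hlim (eventually_mem_nhdsWithin.mono hη)

end Vale.Agent.P219
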