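import Vale.Agent.P219.Conformal

/-!
# P219: radially nondecreasing conformal factors

Here the calibration is the regularised radial field `x / √(ε² + |x|²)`, whose divergence is
nonnegative; the constant improves to `1/2` and no curvature hypothesis is needed.
-/

namespace Vale.Agent.P219

open MeasureTheory Set Filter Topology
open scoped RealInnerProductSpace ContDiff

variable {n : ℕ}

/-- The inequality when the conformal factor increases radially. -/
theorem radial_iso (hn : 2 ≤ n) {U : Set (E n)} {u w : E n → ℝ} (hU : IsOpen U)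
    (hu : ContDiffOn ℝ 1 u U)
    (hrad : ∀ x ∈ U, ‖fderiv ℝ u x‖ * ‖x‖ ≤ fderiv ℝ u x x)
    (hw : ContDiff ℝ 1 w) (hc : HasCompactSupport w) (hs : tsupport w ⊆ U)
    (h0 : ∀ x, 0 ≤ w x) :
    isoConst n * (∫ x, Real.exp (n * u x) * w x ^ ((n : ℝ) / (n - 1))) ^ ((n - 1 : ℝ) / n)
      ≤ 2 * ∫ x, psi u x * ‖fderiv ℝ w x‖ := by
  have hn1 : (1 : ℝ) ≤ (n : ℝ) - 1 := by
    have : (2 : ℝ) ≤ n := by exact_mod_cast hn
    linarith
  set K := tsupport w
  have hK : IsCompact K := hc
  have hw0 : ∀ x, x ∉ K → w x = 0 := fun x hx => image_eq_zero_of_notMem_tsupport hx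
  have hψ := psi_contDiffOn hu
  have hDu : ContinuousOn (fun x => ‖fderiv ℝ u x‖) U :=
    (hu.continuousOn_fderiv_of_isOpen hU le_rfl).norm
  set δ : ℕ → ℝ := fun k => 1 / ((k : ℝ) + 1) with hδdef
  have hδ : ∀ k, 0 < δ k := fun k => by simp only [hδdef]; positivity
  set r : ℕ → E n → ℝ := fun k x => √(δ k ^ 2 + ‖x‖ ^ 2) with hr
  have hr0 : ∀ k x, 0 < r k x := fun k x => Real.sqrt_pos.2 (by
    have := hδ k; positivity)
  have hrx : ∀ k x, ‖x‖ ≤ r k x := fun k x =>
    (le_of_eq (Real.sqrt_sq (norm_nonneg _)).symm).trans (Real.sqrt_le_sqrt (by nlinarith))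
  have hrC : ∀ k, ContDiff ℝ 1 (r k) := fun k =>
    (contDiff_const.add (contDiff_id.norm_sq ℝ)).sqrt fun x => by
      have := hδ k
      have := sq_nonneg ‖x‖
      show δ k ^ 2 + ‖x‖ ^ 2 ≠ 0
      nlinarith [mul_pos (hδ k) (hδ k)]
  have hbound : ∀ k, ∫ x, psi u x * w x * (((n : ℝ) - 1) * ‖fderiv ℝ u x‖ * (‖x‖ / r k x))
      ≤ ∫ x, psi u x * ‖fderiv ℝ w x‖ := by
    intro k
    refine div_bound hU hu hw hc hs h0 (X := fun x => (r k x)⁻¹ • x)
      (((hrC k).inv fun x => (hr0 k x).ne').smul contDiff_id).contDiffOn (fun x => ?_)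
      ((continuousOn_const.mul hDu).mul
        (continuous_norm.div (hrC k).continuous fun x => (hr0 k x).ne').continuousOn)
      (fun x hx => ?_)
    · rw [norm_smul, norm_inv, Real.norm_of_nonneg (hr0 k x).le, inv_mul_le_one₀ (hr0 k x)]
      exact hrx k x
    · have hne := (hr0 k x).ne'
      have hcoord : ∀ i, HasFDerivAt (fun y : E n => y i) (EuclideanSpace.proj (𝕜 := ℝ) i) x :=
        fun i => (EuclideanSpace.proj (𝕜 := ℝ) i).hasFDerivAt
      have hsq : HasFDerivAt (fun y : E n => δ k ^ 2 + ‖y‖ ^ 2) (2 • innerSL ℝ x) x :=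
        ((hasStrictFDerivAt_norm_sq x).hasFDerivAt).const_add _
      have hrd : HasFDerivAt (fun y => (r k y)⁻¹) _ x :=
        (hasDerivAt_inv hne).comp_hasFDerivAt x
          (show HasFDerivAt (r k) _ x from hsq.sqrt (by
            have := hδ k
            have := sq_nonneg ‖x‖
            nlinarith [mul_pos (hδ k) (hδ k)]))
      have hXi : ∀ i, fderiv ℝ (fun y => ((r k y)⁻¹ • y) i) x (e i)
          = (r k x)⁻¹ - x i ^ 2 / r k x ^ 3 := by
        intro i
        have h := hrd.mul (hcoord i)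
        rw [show fderiv ℝ (fun y => ((r k y)⁻¹ • y) i) x = _ from h.fderiv]
        simp only [add_apply, smul_apply, innerSL_apply_apply, smul_eq_mul, nsmul_eq_mul]
        simp [e, EuclideanSpace.inner_single_right, hr]
        field_simp
        ring
      simp only [hXi, Finset.sum_sub_distrib, Finset.sum_const, Finset.card_univ,
        Fintype.card_fin, nsmul_eq_mul, ← Finset.sum_div, ← EuclideanSpace.real_norm_sq_eq,
        map_smul, smul_eq_mul]
      have h1 : ‖x‖ ^ 2 / r k x ^ 3 ≤ (n : ℝ) * (r k x)⁻¹ := by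
        rw [div_le_iff₀ (pow_pos (hr0 k x) 3)]
        field_simp
        nlinarith [hrx k x, norm_nonneg x, sq_nonneg (r k x), pow_le_pow_left₀ (norm_nonneg x)
          (hrx k x) 2]
      have h2 : ((n : ℝ) - 1) * ‖fderiv ℝ u x‖ * (‖x‖ / r k x)
          ≤ ((n : ℝ) - 1) * ((r k x)⁻¹ * fderiv ℝ u x x) := by
        rw [mul_assoc]
        refine mul_le_mul_of_nonneg_left ?_ (by linarith)
        rw [mul_div_assoc', div_eq_inv_mul]
        exact mul_le_mul_of_nonneg_left (hrad x hx) (inv_pos.2 (hr0 k x)).le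
      linarith
  have hi : Integrable fun x => psi u x * w x * (((n : ℝ) - 1) * ‖fderiv ℝ u x‖) :=
    glue_integrable hU hK hs ((hψ.continuousOn.mul hw.continuous.continuousOn).mul
      (continuousOn_const.mul hDu)) (fun x hx => by simp [hw0 x hx])
  have hlim : Tendsto
      (fun k => ∫ x, psi u x * w x * (((n : ℝ) - 1) * ‖fderiv ℝ u x‖ * (‖x‖ / r k x)))
      atTop (𝓝 (∫ x, psi u x * w x * (((n : ℝ) - 1) * ‖fderiv ℝ u x‖))) := by
    refine tendsto_integral_of_dominated_convergence
      (fun x => psi u x * w x * (((n : ℝ) - 1) * ‖fderiv ℝ u x‖))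
      (fun k => (glue_continuous hU hK.isClosed hs
        ((hψ.continuousOn.mul hw.continuous.continuousOn).mul ((continuousOn_const.mul hDu).mul
          (continuous_norm.div (hrC k).continuous fun x => (hr0 k x).ne').continuousOn))
        (fun x hx => by simp [hw0 x hx])).aestronglyMeasurable)
      hi (fun k => ae_of_all _ fun x => ?_) ?_
    · have hq : ‖x‖ / r k x ≤ 1 := (div_le_one (hr0 k x)).2 (hrx k x)
      have hψ0 : 0 ≤ psi u x := (Real.exp_pos _).le
      have hq0 : 0 ≤ ‖x‖ / r k x := div_nonneg (norm_nonneg _) (hr0 k x).le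
      have hm : 0 ≤ psi u x * w x * (((n : ℝ) - 1) * ‖fderiv ℝ u x‖) :=
        mul_nonneg (mul_nonneg hψ0 (h0 x)) (mul_nonneg (by linarith) (norm_nonneg _))
      rw [show psi u x * w x * (((n : ℝ) - 1) * ‖fderiv ℝ u x‖ * (‖x‖ / r k x))
        = psi u x * w x * (((n : ℝ) - 1) * ‖fderiv ℝ u x‖) * (‖x‖ / r k x) by ring,
        Real.norm_of_nonneg (mul_nonneg hm hq0)]
      exact mul_le_of_le_one_right hm hq
    · have h0ae : ∀ᵐ x : E n, x ≠ 0 := by
        have : Nontrivial (E n) := by
          have : Nonempty (Fin n) := ⟨⟨0, by omega⟩⟩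
          infer_instance
        exact (countable_singleton (0 : E n)).ae_notMem volume
      filter_upwards [h0ae] with x hx
      have hδ0 : Tendsto δ atTop (𝓝 0) := tendsto_one_div_add_atTop_nhds_zero_nat
      have hrl : Tendsto (fun k => r k x) atTop (𝓝 ‖x‖) := by
        have h := (((hδ0.pow 2).add_const (‖x‖ ^ 2)).sqrt)
        simpa [hr, Real.sqrt_sq (norm_nonneg x)] using h
      have h := (tendsto_const_nhds (x := ‖x‖)).div hrl (norm_ne_zero_iff.2 hx)
      rw [div_self (norm_ne_zero_iff.2 hx)] at h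
      have h' := (h.const_mul (((n : ℝ) - 1) * ‖fderiv ℝ u x‖)).const_mul (psi u x * w x)
      rw [mul_one] at h'
      exact h'
  have hC := le_of_tendsto' hlim hbound
  have h := iso_of_bound hU hu hw hc hs h0 hn (C := 1) (by rw [one_mul]; exact hC)
  rwa [one_add_one_eq_two] at h

end Vale.Agent.P219
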