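import Vale.Agent.P219.Bisect

/-!
# P219: radial nondecreasing conformal factors, factor `2 ^ (1/n)`
-/

namespace Vale.Agent.P219

open MeasureTheory Set Filter Topology Metric
open scoped ENNReal RealInnerProductSpace

variable {n : ℕ}

/-- The `L¹` Sobolev inequality for `e^{2φ(|x|)}δ` on a ball, `φ` nondecreasing. -/
theorem radial_sharp (hn : 2 ≤ n) {R : ℝ} {φ : ℝ → ℝ} {w : E n → ℝ}
    (hφ : MonotoneOn φ (Ico 0 R)) (hw : ContDiff ℝ 1 w) (hc : HasCompactSupport w)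
    (hs : tsupport w ⊆ ball 0 R) (h0 : ∀ x, 0 ≤ w x) :
    isoConst n * (∫ x, Real.exp (n * φ ‖x‖) * w x ^ ((n : ℝ) / (n - 1))) ^ ((n - 1 : ℝ) / n)
      ≤ 2 ^ ((n : ℝ)⁻¹) * ∫ x, Real.exp (((n : ℝ) - 1) * φ ‖x‖) * ‖fderiv ℝ w x‖ := by
  obtain ⟨m, rfl⟩ : ∃ m, n = m + 1 := ⟨n - 1, by omega⟩
  set N : ℝ := ((m + 1 : ℕ) : ℝ) with hN
  have hN1 : 0 < N - 1 := by
    have : (1 : ℝ) ≤ m := by exact_mod_cast (by omega : 1 ≤ m)
    rw [hN]; push_cast; linarith
  set p : ℝ := N / (N - 1) with hp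
  set a : ℝ := (N - 1) / N
  have hp0 : 0 < p := div_pos (by linarith) hN1
  rcases eq_empty_or_nonempty (tsupport w) with he | hne
  · have hw0 : ∀ x, w x = 0 := fun x => image_eq_zero_of_notMem_tsupport (by simp [he])
    have hd : ∀ x, fderiv ℝ w x = 0 := fun x => fderiv_of_notMem_tsupport ℝ (by simp [he])
    have ha : a ≠ 0 := (div_pos hN1 (by linarith)).ne'
    simp [hw0, hd, Real.zero_rpow hp0.ne', Real.zero_rpow ha]
  obtain ⟨z, hz, hmax⟩ := hc.isCompact.exists_isMaxOn hne continuous_norm.continuousOn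
  have hzR : ‖z‖ < R := by simpa using hs hz
  set φ' : ℝ → ℝ := fun r => φ (max 0 (min r ‖z‖)) with hφ'
  have hcl : ∀ r, max 0 (min r ‖z‖) ∈ Ico 0 R := fun r =>
    ⟨le_max_left _ _, max_lt (lt_of_le_of_lt (norm_nonneg z) hzR)
      (lt_of_le_of_lt (min_le_right _ _) hzR)⟩
  have hmono : Monotone φ' := fun r s h => hφ (hcl r) (hcl s) (by gcongr)
  set Ψ : E (m + 1) → ℝ := fun x => Real.exp ((N - 1) * φ' ‖x‖) with hΨdef
  have hΨ0 : ∀ x, 0 ≤ Ψ x := fun x => (Real.exp_pos _).le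
  have hΨ : Measurable Ψ :=
    Real.measurable_exp.comp ((hmono.measurable.comp measurable_norm).const_mul _)
  have hΨle : ∀ x y : E (m + 1), ‖x‖ ≤ ‖y‖ → Ψ x ≤ Ψ y := fun x y h =>
    Real.exp_le_exp.2 (mul_le_mul_of_nonneg_left (hmono h) hN1.le)
  set M := Real.exp ((N - 1) * φ' ‖z‖)
  have hΨM : ∀ x, Ψ x ≤ M := fun x => by
    refine Real.exp_le_exp.2 (mul_le_mul_of_nonneg_left (hφ (hcl _) (hcl _) ?_) hN1.le)
    rw [min_self]
    exact max_le_max le_rfl (min_le_right _ _)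
  have hwc := hw.continuous
  have hφeq : ∀ x ∈ tsupport w, φ' ‖x‖ = φ ‖x‖ := fun x hx => by
    simp only [hφ']
    rw [min_eq_left (hmax hx), max_eq_right (norm_nonneg x)]
  have e1 : ∀ x, Real.exp (N * φ ‖x‖) * w x ^ p = (Ψ x * w x) ^ p := fun x => by
    by_cases hx : x ∈ tsupport w
    · rw [Real.mul_rpow (hΨ0 x) (h0 x)]
      simp only [hΨdef]
      rw [← Real.exp_mul, hφeq x hx]
      congr 2
      rw [hp]; field_simp
    · rw [image_eq_zero_of_notMem_tsupport hx]; simp [Real.zero_rpow hp0.ne']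
  have e2 : ∀ x, Real.exp ((N - 1) * φ ‖x‖) * ‖fderiv ℝ w x‖ = Ψ x * ‖fderiv ℝ w x‖ := fun x => by
    by_cases hx : x ∈ tsupport w
    · simp only [hΨdef]; rw [hφeq x hx]
    · simp [fderiv_of_notMem_tsupport ℝ hx]
  simp only [e1, e2]
  have hi1 : Integrable fun x => (Ψ x * w x) ^ p := by
    refine Integrable.mono' (g := fun x => (M * w x) ^ p) ?_
      ((hΨ.mul hwc.measurable).pow_const _).aestronglyMeasurable (ae_of_all _ fun x => ?_)
    · exact ((continuous_const.mul hwc).rpow_const fun _ => Or.inr hp0.le).integrable_of_hasCompactSupport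
        ((hc.mul_left).comp_left (g := fun s : ℝ => s ^ p) (Real.zero_rpow hp0.ne'))
    · rw [Real.norm_of_nonneg (Real.rpow_nonneg (mul_nonneg (hΨ0 x) (h0 x)) _)]
      exact Real.rpow_le_rpow (mul_nonneg (hΨ0 x) (h0 x))
        (mul_le_mul_of_nonneg_right (hΨM x) (h0 x)) hp0.le
  have hi2 : Integrable fun x => Ψ x * ‖fderiv ℝ w x‖ := by
    refine Integrable.mono' (g := fun x => M * ‖fderiv ℝ w x‖) ?_
      (hΨ.mul (hw.continuous_fderiv one_ne_zero).norm.measurable).aestronglyMeasurable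
      (ae_of_all _ fun x => ?_)
    · exact ((hw.continuous_fderiv one_ne_zero).norm.integrable_of_hasCompactSupport
        (hc.fderiv ℝ).norm).const_mul _
    · rw [Real.norm_of_nonneg (mul_nonneg (hΨ0 x) (norm_nonneg _))]
      exact mul_le_mul_of_nonneg_right (hΨM x) (norm_nonneg _)
  have hn1 : ∀ x, 0 ≤ (Ψ x * w x) ^ p := fun x => Real.rpow_nonneg (mul_nonneg (hΨ0 x) (h0 x)) _
  have hn2 : ∀ x, 0 ≤ Ψ x * ‖fderiv ℝ w x‖ := fun x => mul_nonneg (hΨ0 x) (norm_nonneg _)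
  have h := radial_sharp_lintegral (m := m) (by omega) hΨ hΨ0 (fun K _ => ⟨M, fun x _ => hΨM x⟩)
    hΨle hw hc h0 (by
      rw [← ofReal_integral_eq_lintegral_ofReal hi1 (ae_of_all _ hn1)]
      exact ENNReal.ofReal_ne_top)
  rw [← ofReal_integral_eq_lintegral_ofReal hi1 (ae_of_all _ hn1),
    ← ofReal_integral_eq_lintegral_ofReal hi2 (ae_of_all _ hn2),
    ENNReal.ofReal_rpow_of_nonneg (integral_nonneg hn1) (div_pos hN1 (by linarith)).le,
    ← ENNReal.ofReal_mul (isoConst_pos (by omega)).le, ← ENNReal.ofReal_mul (by positivity)] at h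
  exact (ENNReal.ofReal_le_ofReal_iff (mul_nonneg (by positivity) (integral_nonneg hn2))).1 h

end Vale.Agent.P219
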