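import Vale.Agent.P237.BrunnMinkowski

/-!
# P219: the sharp `L¹` Sobolev inequality in Euclidean space

The Brunn–Minkowski inequality bounds the superlevel sets of the sup-convolution
`w_ε x = max_{‖y‖ ≤ 1} w (x + ε • y)` from below; dividing by `ε` and letting `ε → 0` gives
`n ω^{1/n} ∫ |{w > t}|^{(n-1)/n} dt ≤ ∫ ‖Dw‖`, and Hölder's inequality finishes the proof.
-/

namespace Vale.Agent.P219

open MeasureTheory Set Filter Topology Metric
open scoped Pointwise ENNReal RealInnerProductSpace

/-- Euclidean space. -/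
abbrev E (n : ℕ) := EuclideanSpace ℝ (Fin n)

variable {n : ℕ}

/-- The `n`-th root of the volume of the unit ball. -/
noncomputable def kap (n : ℕ) : ℝ :=
  volume.real (closedBall (0 : E n) 1) ^ ((n : ℝ)⁻¹)

/-- The sharp Euclidean isoperimetric constant. -/
noncomputable def isoConst (n : ℕ) : ℝ := n * kap n

lemma kap_pos (n : ℕ) : 0 < kap n := by
  refine Real.rpow_pos_of_pos ?_ _
  exact ENNReal.toReal_pos (measure_closedBall_pos volume _ one_pos).ne'
    (isCompact_closedBall (0 : E n) 1).measure_lt_top.ne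

lemma kap_pow (hn : 0 < n) : kap n ^ n = volume.real (closedBall (0 : E n) 1) :=
  Real.rpow_inv_natCast_pow measureReal_nonneg hn.ne'

lemma isoConst_pos (hn : 0 < n) : 0 < isoConst n :=
  mul_pos (by exact_mod_cast hn) (kap_pos n)

/-- Bernoulli's inequality. -/
lemma pow_add_ge {x h : ℝ} (hx : 0 ≤ x) (hh : 0 ≤ h) :
    ∀ m : ℕ, x ^ m + m * x ^ (m - 1) * h ≤ (x + h) ^ m := by
  intro m
  induction m with
  | zero => simp
  | succ m ih =>
    rw [pow_succ (x + h), Nat.add_sub_cancel]
    refine le_trans ?_ (mul_le_mul_of_nonneg_right ih (by positivity))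
    have hm : (m : ℝ) * x ^ (m - 1) * x = m * x ^ m := by
      rcases m with _ | m
      · simp
      · rw [Nat.add_sub_cancel, mul_assoc, ← pow_succ]
    have h0 : 0 ≤ (m : ℝ) * x ^ (m - 1) * h * h := by positivity
    calc x ^ (m + 1) + ((m + 1 : ℕ) : ℝ) * x ^ m * h
        = x ^ m * x + (m : ℝ) * x ^ m * h + x ^ m * h := by push_cast; ring
      _ ≤ _ := by rw [← hm]; nlinarith

/-- The sup-convolution. -/
noncomputable def supc (w : E n → ℝ) (ε : ℝ) (x : E n) : ℝ :=
  sSup ((fun y => w (x + ε • y)) '' closedBall (0 : E n) 1)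

lemma continuous_supc {w : E n → ℝ} (hw : Continuous w) (ε : ℝ) : Continuous (supc w ε) :=
  (isCompact_closedBall (0 : E n) 1).continuous_sSup
    (f := fun x y => w (x + ε • y)) (by fun_prop)

lemma le_supc {w : E n → ℝ} (hw : Continuous w) (ε : ℝ) (x : E n) {y : E n} (hy : ‖y‖ ≤ 1) :
    w (x + ε • y) ≤ supc w ε x :=
  le_csSup ((isCompact_closedBall (0 : E n) 1).image (by fun_prop)).bddAbove
    (mem_image_of_mem _ (by simpa using hy))

lemma exists_supc {w : E n → ℝ} (hw : Continuous w) (ε : ℝ) (x : E n) :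
    ∃ y : E n, ‖y‖ ≤ 1 ∧ supc w ε x = w (x + ε • y) := by
  obtain ⟨y, hy, e⟩ := ((isCompact_closedBall (0 : E n) 1).image
    (f := fun y => w (x + ε • y)) (by fun_prop)).sSup_mem
    ((nonempty_closedBall.2 zero_le_one).image _)
  exact ⟨y, by simpa using hy, e.symm⟩

lemma self_le_supc {w : E n → ℝ} (hw : Continuous w) (ε : ℝ) (x : E n) : w x ≤ supc w ε x := by
  simpa using le_supc hw ε x (y := 0) (by simp)

/-- Brunn–Minkowski for the superlevel sets of the sup-convolution. -/
lemma level_supc (hn2 : 2 ≤ n) {w : E n → ℝ} (hw : Continuous w) {ε : ℝ} (hε : 0 < ε) {t : ℝ}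
    (hfin : volume {x | t < supc w ε x} ≠ ∞) :
    volume.real {x | t < w x}
        + n * kap n * ε * volume.real {x | t < w x} ^ ((n - 1 : ℝ) / n)
      ≤ volume.real {x | t < supc w ε x} := by
  set C := {x | t < supc w ε x}
  set A := {x | t < w x}
  have hsubAC : A ⊆ C := fun x hx => lt_of_lt_of_le hx (self_le_supc hw ε x)
  set v := volume.real A
  have hn : 0 < n := by omega
  rcases (measureReal_nonneg : 0 ≤ v).eq_or_lt with hv | hv
  · have h2 : (2 : ℝ) ≤ n := by exact_mod_cast hn2
    rw [show v = 0 from hv.symm, Real.zero_rpow (div_pos (by linarith) (by linarith)).ne', mul_zero, add_zero]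
    exact measureReal_nonneg
  set α := v ^ ((n : ℝ)⁻¹)
  have hα : 0 < α := Real.rpow_pos_of_pos hv _
  have hαn : α ^ n = v := Real.rpow_inv_natCast_pow hv.le hn.ne'
  have hAm : MeasurableSet A := (isOpen_lt continuous_const hw).measurableSet
  have hCm : MeasurableSet C := (isOpen_lt continuous_const (continuous_supc hw ε)).measurableSet
  have hκ := kap_pos n
  have h := Vale.Agent.P237.BM.bm_pow (n := n) (a := 1 / 2) (b := 1 / 2)
    (A := (2 : ℝ) • A) (B := (2 * ε) • closedBall (0 : E n) 1) (C := C)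
    (α := 2 * α) (β := 2 * ε * kap n) (by norm_num) (by norm_num) (by norm_num)
    (hAm.const_smul₀ _) (isClosed_closedBall.measurableSet.const_smul₀ _) hCm hfin ?_
    (by positivity) (by positivity) ?_ ?_
  · have e : (1 / 2 * (2 * α) + 1 / 2 * (2 * ε * kap n)) = α + ε * kap n := by ring
    rw [e] at h
    refine le_trans ?_ h
    refine le_trans (le_of_eq ?_) (pow_add_ge hα.le (by positivity) n)
    have hexp : α ^ (n - 1) = v ^ ((n - 1 : ℝ) / n) := by
      rw [← Real.rpow_natCast, ← Real.rpow_mul hv.le, Nat.cast_sub hn, Nat.cast_one,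
        inv_mul_eq_div]
    rw [hαn, hexp]; ring
  · intro x hx y hy
    obtain ⟨a, ha, rfl⟩ := mem_smul_set.1 hx
    obtain ⟨b, hb, rfl⟩ := mem_smul_set.1 hy
    rw [smul_smul, smul_smul]
    have e : (1 / 2 * 2 : ℝ) • a + (1 / 2 * (2 * ε)) • b = a + ε • b := by
      norm_num; rw [show (1 / 2 * (2 * ε)) = ε by ring]
    show t < supc w ε _
    rw [e]
    have h1 := le_supc hw ε (a + ε • b) (y := -b) (by simpa using hb)
    rw [smul_neg, add_neg_cancel_right] at h1
    exact lt_of_lt_of_le ha h1
  · rw [Vale.Agent.P237.BM.vol_smul (by norm_num), mul_pow, hαn]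
    rfl
  · rw [Vale.Agent.P237.BM.vol_smul (by positivity), mul_pow, kap_pow hn]
    rfl

/-- The coarea lower bound in integrated form. -/
theorem coarea_lower (hn : 2 ≤ n) {w : E n → ℝ} (hw : ContDiff ℝ 1 w) (hc : HasCompactSupport w)
    (h0 : ∀ x, 0 ≤ w x) :
    ENNReal.ofReal (isoConst n)
        * ∫⁻ t in Ioi (0 : ℝ), ENNReal.ofReal (volume.real {x | t < w x} ^ ((n - 1 : ℝ) / n))
      ≤ ENNReal.ofReal (∫ x, ‖fderiv ℝ w x‖) := by
  have hn0 : 0 < n := by omega
  have hwc := hw.continuous
  obtain ⟨L, hL⟩ := hw.lipschitzWith_of_hasCompactSupport hc one_ne_zero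
  set K := cthickening 1 (tsupport w)
  have hK : IsCompact K := IsCompact.cthickening hc
  set ε : ℕ → ℝ := fun k => 1 / ((k : ℝ) + 1) with hεdef
  have hε : ∀ k, 0 < ε k := fun k => by simp only [hεdef]; positivity
  have hε1 : ∀ k, ε k ≤ 1 := fun k => by
    simp only [hεdef]; rw [div_le_one (by positivity)]; linarith [Nat.cast_nonneg (α := ℝ) k]
  have hout : ∀ k x, x ∉ K → supc w (ε k) x = 0 ∧ w x = 0 := by
    intro k x hx
    have hz : ∀ y : E n, ‖y‖ ≤ 1 → w (x + ε k • y) = 0 := by
      intro y hy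
      by_contra hne
      refine hx (mem_cthickening_of_dist_le x (x + ε k • y) 1 _ (subset_tsupport w hne) ?_)
      rw [dist_self_add_right, norm_smul, Real.norm_eq_abs, abs_of_pos (hε k)]
      exact mul_le_one₀ (hε1 k) (norm_nonneg _) hy
    obtain ⟨y, hy, e⟩ := exists_supc hwc (ε k) x
    exact ⟨e.trans (hz y hy), by simpa using hz 0 (by simp)⟩
  have hwi : Integrable w := hwc.integrable_of_hasCompactSupport hc
  have hsi : ∀ k, Integrable (supc w (ε k)) := fun k =>
    (continuous_supc hwc _).integrable_of_hasCompactSupport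
      (HasCompactSupport.intro hK fun x hx => (hout k x hx).1)
  have hs0 : ∀ k x, 0 ≤ supc w (ε k) x := fun k x => (h0 x).trans (self_le_supc hwc _ x)
  have hstep : ∀ k, ENNReal.ofReal (isoConst n)
        * ∫⁻ t in Ioi (0 : ℝ), ENNReal.ofReal (volume.real {x | t < w x} ^ ((n - 1 : ℝ) / n))
      ≤ ENNReal.ofReal (∫ x, (supc w (ε k) x - w x) / ε k) := by
    intro k
    set Φ := ∫⁻ t in Ioi (0 : ℝ),
      ENNReal.ofReal (volume.real {x | t < w x} ^ ((n - 1 : ℝ) / n))
    have hfinS : ∀ t ∈ Ioi (0 : ℝ), volume {x | t < supc w (ε k) x} ≠ ∞ := fun t ht =>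
      ne_top_of_le_ne_top hK.measure_lt_top.ne (measure_mono fun x hx => by
        by_contra hxK
        have h' : t < supc w (ε k) x := hx
        rw [(hout k x hxK).1] at h'
        exact absurd h' (not_lt.2 (le_of_lt ht)))
    have hmeas : Measurable fun t : ℝ => volume.real {x | t < w x} := by
      refine ENNReal.measurable_toReal.comp (Antitone.measurable fun s t hst => ?_)
      exact measure_mono fun x (hx : t < w x) => lt_of_le_of_lt hst hx
    have key : ENNReal.ofReal (∫ x, w x) + ENNReal.ofReal (isoConst n * ε k) * Φ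
        ≤ ENNReal.ofReal (∫ x, supc w (ε k) x) := by
      rw [ofReal_integral_eq_lintegral_ofReal hwi (ae_of_all _ h0),
        ofReal_integral_eq_lintegral_ofReal (hsi k) (ae_of_all _ (hs0 k)),
        lintegral_eq_lintegral_meas_lt volume (ae_of_all _ h0) hwc.aemeasurable,
        lintegral_eq_lintegral_meas_lt volume (ae_of_all _ (hs0 k))
          (continuous_supc hwc _).aemeasurable, ← lintegral_const_mul _ (by fun_prop),
        ← lintegral_add_right _ (by fun_prop)]
      refine setLIntegral_mono' measurableSet_Ioi fun t ht => ?_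
      have hS := hfinS t ht
      have hA : volume {x | t < w x} ≠ ∞ := ne_top_of_le_ne_top hS
        (measure_mono fun x hx => lt_of_lt_of_le hx (self_le_supc hwc _ x))
      rw [← ENNReal.ofReal_toReal hA, ← ENNReal.ofReal_toReal hS,
        ← ENNReal.ofReal_mul (mul_pos (isoConst_pos hn0) (hε k)).le,
        ← ENNReal.ofReal_add ENNReal.toReal_nonneg (by
          have := isoConst_pos hn0
          have := hε k
          positivity)]
      refine ENNReal.ofReal_le_ofReal ?_
      exact level_supc hn hwc (hε k) hS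
    have e : ENNReal.ofReal (∫ x, supc w (ε k) x) = ENNReal.ofReal (∫ x, w x)
        + ENNReal.ofReal (ε k) * ENNReal.ofReal (∫ x, (supc w (ε k) x - w x) / ε k) := by
      have hd : 0 ≤ ∫ x, supc w (ε k) x - w x :=
        integral_nonneg fun x => sub_nonneg.2 (self_le_supc hwc _ x)
      rw [← ENNReal.ofReal_mul (hε k).le, integral_div, mul_div_cancel₀ _ (hε k).ne',
        ← ENNReal.ofReal_add (integral_nonneg h0) hd, integral_sub (hsi k) hwi, add_sub_cancel]
    rw [e, mul_comm (isoConst n), ENNReal.ofReal_mul (hε k).le, mul_assoc] at key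
    exact (ENNReal.mul_le_mul_iff_right (ENNReal.ofReal_pos.2 (hε k)).ne' ENNReal.ofReal_ne_top).1
      ((ENNReal.add_le_add_iff_left ENNReal.ofReal_ne_top).1 key)
  have hlim : Tendsto (fun k => ∫ x, (supc w (ε k) x - w x) / ε k) atTop
      (𝓝 (∫ x, ‖fderiv ℝ w x‖)) := by
    refine tendsto_integral_of_dominated_convergence (K.indicator fun _ => (L : ℝ))
      (fun k => (((continuous_supc hwc _).sub hwc).div_const _).aestronglyMeasurable)
      ((integrable_indicator_iff hK.measurableSet).2 (integrableOn_const hK.measure_lt_top.ne))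
      (fun k => ae_of_all _ fun x => ?_) (ae_of_all _ fun x => ?_)
    · by_cases hx : x ∈ K
      · rw [indicator_of_mem hx, Real.norm_eq_abs,
          abs_of_nonneg (div_nonneg (sub_nonneg.2 (self_le_supc hwc _ x)) (hε k).le),
          div_le_iff₀ (hε k)]
        obtain ⟨y, hy, e⟩ := exists_supc hwc (ε k) x
        have h1 := hL.dist_le_mul (x + ε k • y) x
        rw [dist_self_add_left, norm_smul, Real.norm_eq_abs, abs_of_pos (hε k),
          Real.dist_eq] at h1
        rw [e]
        calc w (x + ε k • y) - w x ≤ (L : ℝ) * (ε k * ‖y‖) := (le_abs_self _).trans h1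
          _ ≤ L * ε k := by
            refine mul_le_mul_of_nonneg_left ?_ L.2
            exact mul_le_of_le_one_right (hε k).le hy
      · rw [indicator_of_notMem hx, (hout k x hx).1, (hout k x hx).2]; simp
    · have hd := ((hw.differentiable one_ne_zero) x).hasFDerivAt
      set D := fderiv ℝ w x
      have hε0 : Tendsto ε atTop (𝓝 0) := tendsto_one_div_add_atTop_nhds_zero_nat
      rw [Metric.tendsto_nhds]
      intro η hη
      have hsmall := (hd.isLittleO).def (half_pos hη)
      rw [Metric.eventually_nhds_iff] at hsmall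
      obtain ⟨δ, hδ, hlo⟩ := hsmall
      filter_upwards [hε0.eventually (gt_mem_nhds hδ)] with k hk
      have hb : ∀ y : E n, ‖y‖ ≤ 1 → |w (x + ε k • y) - w x - ε k * D y| ≤ η / 2 * ε k := by
        intro y hy
        have hyn : ‖ε k • y‖ ≤ ε k := by
          rw [norm_smul, Real.norm_eq_abs, abs_of_pos (hε k)]
          exact mul_le_of_le_one_right (hε k).le hy
        have := hlo (y := x + ε k • y) (by rw [dist_self_add_left]; linarith)
        simp only [add_sub_cancel_left, map_smul, smul_eq_mul, Real.norm_eq_abs] at this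
        exact this.trans (mul_le_mul_of_nonneg_left hyn (half_pos hη).le)
      obtain ⟨y, hy, e⟩ := exists_supc hwc (ε k) x
      have hDy : D y ≤ ‖D‖ := by
        calc D y ≤ ‖D y‖ := Real.le_norm_self _
          _ ≤ ‖D‖ * ‖y‖ := D.le_opNorm y
          _ ≤ ‖D‖ := mul_le_of_le_one_right (norm_nonneg _) hy
      obtain ⟨z, hz, hDz⟩ : ∃ z : E n, ‖z‖ ≤ 1 ∧ D z = ‖D‖ := by
        set g := (InnerProductSpace.toDual ℝ (E n)).symm D
        have hg : ‖g‖ = ‖D‖ := LinearIsometryEquiv.norm_map _ _
        refine ⟨‖g‖⁻¹ • g, ?_, ?_⟩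
        · rw [norm_smul, norm_inv, norm_norm]
          rcases eq_or_ne ‖g‖ 0 with h | h
          · rw [h]; simp
          · rw [inv_mul_cancel₀ h]
        · rw [map_smul, smul_eq_mul, ← InnerProductSpace.toDual_symm_apply (𝕜 := ℝ) (y := D),
            real_inner_self_eq_norm_sq, hg]
          rcases eq_or_ne ‖D‖ 0 with h | h
          · rw [h]; simp
          · field_simp
      have h1 := abs_le.1 (hb y hy)
      have h2 := abs_le.1 (hb z hz)
      have h3 := le_supc hwc (ε k) x hz
      rw [hDz] at h2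
      have hεk := hε k
      rw [Real.dist_eq, abs_lt, lt_sub_iff_add_lt, sub_lt_iff_lt_add, lt_div_iff₀ hεk,
        div_lt_iff₀ hεk]
      constructor
      · nlinarith
      · rw [e]; nlinarith [mul_le_mul_of_nonneg_left hDy hεk.le]
  exact ge_of_tendsto' ((ENNReal.continuous_ofReal.tendsto _).comp hlim) hstep

/-- The sharp `L¹` Sobolev inequality. -/
theorem sobolev (hn : 2 ≤ n) {w : E n → ℝ} (hw : ContDiff ℝ 1 w) (hc : HasCompactSupport w)
    (h0 : ∀ x, 0 ≤ w x) :
    isoConst n * (∫ x, w x ^ ((n : ℝ) / (n - 1))) ^ ((n - 1 : ℝ) / n)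
      ≤ ∫ x, ‖fderiv ℝ w x‖ := by
  have hn0 : 0 < n := by omega
  have hn1 : (0 : ℝ) < (n : ℝ) - 1 := by
    have : (2 : ℝ) ≤ n := by exact_mod_cast hn
    linarith
  have hnp : (0 : ℝ) < n := by positivity
  have hwc := hw.continuous
  set p : ℝ := (n : ℝ) / (n - 1) with hp
  set a : ℝ := (n - 1 : ℝ) / n with ha
  have hp0 : 0 < p := div_pos hnp hn1
  have ha0 : 0 < a := div_pos hn1 hnp
  set Φ := ∫⁻ t in Ioi (0 : ℝ), ENNReal.ofReal (volume.real {x | t < w x} ^ a)
  set g : E n → ℝ≥0∞ := fun x => ENNReal.ofReal (w x ^ (p - 1)) with hg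
  have hp1 : 0 < p - 1 := by
    rw [hp, sub_pos, one_lt_div hn1]; linarith
  have hgm : Measurable g :=
    ENNReal.measurable_ofReal.comp (hwc.rpow_const fun _ => Or.inr hp1.le).measurable
  have hpi : Integrable (fun x => w x ^ p) :=
    (hwc.rpow_const fun _ => Or.inr hp0.le).integrable_of_hasCompactSupport
      (hc.comp_left (g := fun s : ℝ => s ^ p) (Real.zero_rpow hp0.ne'))
  set I := ∫⁻ x, ENNReal.ofReal (w x ^ p) with hI
  have hItop : I ≠ ∞ := by
    rw [hI, ← ofReal_integral_eq_lintegral_ofReal hpi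
      (ae_of_all _ fun x => Real.rpow_nonneg (h0 x) _)]
    exact ENNReal.ofReal_ne_top
  have hint : ∀ x, g x ^ (n : ℝ) = ENNReal.ofReal (w x ^ p) := by
    intro x
    rw [hg, ENNReal.ofReal_rpow_of_nonneg (Real.rpow_nonneg (h0 x) _) hnp.le,
      ← Real.rpow_mul (h0 x), show (p - 1) * n = p by rw [hp]; field_simp; ring]
  have hIle : I ≤ Φ * I ^ (n : ℝ)⁻¹ := by
    have e1 : I = ∫⁻ x, ENNReal.ofReal (w x) ∂(volume.withDensity g) := by
      rw [lintegral_withDensity_eq_lintegral_mul _ hgm hwc.measurable.ennreal_ofReal, hI]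
      refine lintegral_congr fun x => ?_
      show _ = g x * ENNReal.ofReal (w x)
      rw [hg, ← ENNReal.ofReal_mul (Real.rpow_nonneg (h0 x) _)]
      congr 1
      rcases (h0 x).eq_or_lt with h | h
      · rw [← h, mul_zero, Real.zero_rpow hp0.ne']
      · rw [← Real.rpow_add_one h.ne', sub_add_cancel]
    refine e1.le.trans ?_
    rw [lintegral_eq_lintegral_meas_lt _ (ae_of_all _ h0) hwc.aemeasurable,
      ← lintegral_mul_const' _ _ (ENNReal.rpow_ne_top_of_nonneg (by positivity) hItop)]
    refine setLIntegral_mono' measurableSet_Ioi fun t ht => ?_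
    have hA : MeasurableSet {x | t < w x} := (isOpen_lt continuous_const hwc).measurableSet
    have hAt : volume {x | t < w x} ≠ ∞ :=
      ne_top_of_le_ne_top hc.isCompact.measure_lt_top.ne (measure_mono fun x hx =>
        subset_tsupport w (show w x ≠ 0 from ne_of_gt (lt_trans ht hx)))
    have hpq : Real.HolderConjugate (n : ℝ) p := by
      rw [Real.holderConjugate_iff]
      refine ⟨by linarith, ?_⟩
      rw [hp, inv_div]; field_simp; ring
    have hH := ENNReal.lintegral_mul_le_Lp_mul_Lq volume hpq hgm.aemeasurable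
      ((measurable_one.indicator hA).aemeasurable (μ := volume))
    rw [withDensity_apply _ hA, ← lintegral_indicator hA]
    refine le_trans (le_of_eq ?_) (hH.trans ?_)
    · refine lintegral_congr fun x => ?_
      by_cases hx : x ∈ {x | t < w x} <;> simp [hx]
    · rw [mul_comm, show (1 : ℝ) / (n : ℝ) = (n : ℝ)⁻¹ from one_div _]
      refine mul_le_mul' (le_of_eq ?_) (le_of_eq ?_)
      · have e2 : (fun x => ({x | t < w x}.indicator (1 : E n → ℝ≥0∞) x) ^ p)
            = {x | t < w x}.indicator 1 := by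
          funext x
          by_cases hx : x ∈ {x | t < w x} <;> simp [hx, ENNReal.zero_rpow_of_pos hp0]
        rw [e2, lintegral_indicator_one hA, ← ENNReal.ofReal_toReal hAt,
          ENNReal.ofReal_rpow_of_nonneg ENNReal.toReal_nonneg (by positivity)]
        congr 2
        rw [hp, ha, one_div_div]
      · simp only [hint]
        rfl
  have hIΦ : I ^ a ≤ Φ := by
    rcases eq_or_ne I 0 with h | h
    · rw [h, ENNReal.zero_rpow_of_pos ha0]; exact zero_le
    · have e : I ^ a = I / I ^ (n : ℝ)⁻¹ := by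
        rw [show a = 1 - (n : ℝ)⁻¹ by rw [ha]; field_simp, ENNReal.rpow_sub _ _ h hItop,
          ENNReal.rpow_one]
      rw [e]
      exact ENNReal.div_le_of_le_mul hIle
  have h1 : ENNReal.ofReal (isoConst n) * I ^ a ≤ ENNReal.ofReal (∫ x, ‖fderiv ℝ w x‖) :=
    (mul_le_mul' le_rfl hIΦ).trans (coarea_lower hn hw hc h0)
  have hJ : 0 ≤ ∫ x, w x ^ p := integral_nonneg fun x => Real.rpow_nonneg (h0 x) _
  rw [hI, ← ofReal_integral_eq_lintegral_ofReal hpi
    (ae_of_all _ fun x => Real.rpow_nonneg (h0 x) _), ENNReal.ofReal_rpow_of_nonneg hJ ha0.le,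
    ← ENNReal.ofReal_mul (isoConst_pos hn0).le] at h1
  exact (ENNReal.ofReal_le_ofReal_iff (integral_nonneg fun x => norm_nonneg _)).1 h1

end Vale.Agent.P219
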